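import Vale.Agent.P204.Full.Base.Fields
import Vale.Agent.P204.Full.Common.Linear

/-!
# P204 Base: the finite atlas, the partition of unity, norms, wedge ratio and the sets `near`
-/

open scoped Manifold ContDiff Topology
open Set Filter

noncomputable section

namespace Vale.Agent.P204.Full.Base

universe u

/-! ### Norm of a pull-back -/

lemma norm_pullBil_le (A : Endo) (b : Bil) : ‖pullBil A b‖ ≤ ‖A‖ ^ 2 * ‖b‖ := by
  refine ContinuousLinearMap.opNorm_le_bound _ (by positivity) fun u => ?_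
  refine ContinuousLinearMap.opNorm_le_bound _ (by positivity) fun v => ?_
  rw [pullBil_apply]
  refine (b.le_opNorm₂ (A u) (A v)).trans ?_
  calc ‖b‖ * ‖A u‖ * ‖A v‖ ≤ ‖b‖ * (‖A‖ * ‖u‖) * (‖A‖ * ‖v‖) := by
        gcongr <;> exact A.le_opNorm _
    _ = ‖A‖ ^ 2 * ‖b‖ * ‖u‖ * ‖v‖ := by ring

lemma cdOn_top22 {a b : R4 → Bil} {s : Set R4} (ha : ContDiffOn ℝ ∞ a s)
    (hb : ContDiffOn ℝ ∞ b s) : ContDiffOn ℝ ∞ (fun z => top22 (a z) (b z)) s := by
  have h : ∀ (c : R4 → Bil), ContDiffOn ℝ ∞ c s → ∀ i j,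
      ContDiffOn ℝ ∞ (fun z => c z (bvec i) (bvec j)) s :=
    fun c hc i j => (hc.clm_apply contDiffOn_const).clm_apply contDiffOn_const
  exact ((((((h a ha 0 1).mul (h b hb 2 3)).sub ((h a ha 0 2).mul (h b hb 1 3))).add
    ((h a ha 0 3).mul (h b hb 1 2))).add ((h a ha 1 2).mul (h b hb 0 3))).sub
    ((h a ha 1 3).mul (h b hb 0 2))).add ((h a ha 2 3).mul (h b hb 0 1))

lemma cOn_top22 {a b : R4 → Bil} {s : Set R4} (ha : ContinuousOn a s)
    (hb : ContinuousOn b s) : ContinuousOn (fun z => top22 (a z) (b z)) s := by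
  have h : ∀ (c : R4 → Bil), ContinuousOn c s → ∀ i j,
      ContinuousOn (fun z => c z (bvec i) (bvec j)) s :=
    fun c hc i j => (hc.clm_apply continuousOn_const).clm_apply continuousOn_const
  exact ((((((h a ha 0 1).mul (h b hb 2 3)).sub ((h a ha 0 2).mul (h b hb 1 3))).add
    ((h a ha 0 3).mul (h b hb 1 2))).add ((h a ha 1 2).mul (h b hb 0 3))).sub
    ((h a ha 1 3).mul (h b hb 0 2))).add ((h a ha 2 3).mul (h b hb 0 1))

variable {X : Type u} [TopologicalSpace X] [ChartedSpace R4 X] [IsManifold 𝓘(ℝ, R4) ∞ X]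
  (G : Geo X)

/-! ### The wedge ratio -/

omit [IsManifold 𝓘(ℝ, R4) ∞ X] in
lemma isAlt_view2 {θ : X → Bil} (hθ : ∀ x, IsAlt (θ x)) (c : OpenPartialHomeomorph X R4) (y : R4) :
    IsAlt (view2 c θ y) := isAlt_pullBil (hθ _) _

lemma omega_top_ne (x : X) : top22 (G.omega x) (G.omega x) ≠ 0 := by
  obtain ⟨i, hx, -⟩ := G.c_cover x
  have h := G.c_oriented i _ ((G.c i).map_source hx)
  rw [view2, top22_pullBil _ (G.omega_smooth.1 _) (G.omega_smooth.1 _),
    (G.c i).left_inv hx] at h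
  exact fun h0 => by rw [h0, mul_zero] at h; exact lt_irrefl _ h

lemma det_dsymm_ne {c : OpenPartialHomeomorph X R4} (hc : Atl c) {y : R4} (hy : y ∈ c.target) :
    (dsymm c y).det ≠ 0 := fun h => by
  have h1 := congrArg (fun A : Endo => A.det) (dchart_comp_dsymm hc hy)
  simp only [ContinuousLinearMap.det] at h h1
  change LinearMap.det ((dchart c (c.symm y)).toLinearMap.comp (dsymm c y).toLinearMap) =
    LinearMap.det (LinearMap.id : R4 →ₗ[ℝ] R4) at h1
  rw [LinearMap.det_comp, h, mul_zero, LinearMap.det_id] at h1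
  exact zero_ne_one h1

lemma W_view {c : OpenPartialHomeomorph X R4} (hc : Atl c) (a b : X → Bil)
    (ha : ∀ x, IsAlt (a x)) (hb : ∀ x, IsAlt (b x)) {y : R4} (hy : y ∈ c.target) :
    top22 (view2 c G.omega y) (view2 c G.omega y) ≠ 0 ∧
      G.W (c.symm y) (a (c.symm y)) (b (c.symm y)) =
        top22 (view2 c a y) (view2 c b y) / top22 (view2 c G.omega y) (view2 c G.omega y) := by
  have hd := det_dsymm_ne hc hy
  rw [view2, view2, view2, top22_pullBil _ (G.omega_smooth.1 _) (G.omega_smooth.1 _),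
    top22_pullBil _ (ha _) (hb _)]
  exact ⟨mul_ne_zero hd (omega_top_ne G _), (mul_div_mul_left _ _ hd).symm⟩

lemma W_cont {θ η : X → Bil} (hθ : Cont2 θ) (hη : Cont2 η) :
    Continuous fun x => G.W x (θ x) (η x) := continuous_iff_continuousAt.2 fun x => by
  have hx := mem_chart_source R4 x
  have hc := atl_chartAt x
  have hω : ContinuousOn (view2 (chartAt R4 x) G.omega) (chartAt R4 x).target :=
    (smooth_view2 G.omega_smooth hc).continuousOn
  have hq : ContinuousAt (fun y => top22 (view2 (chartAt R4 x) θ y) (view2 (chartAt R4 x) η y) /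
      top22 (view2 (chartAt R4 x) G.omega y) (view2 (chartAt R4 x) G.omega y)) (chartAt R4 x x) :=
    ((cOn_top22 (cont_view2 hθ hc) (cont_view2 hη hc)).continuousAt
      ((chartAt R4 x).open_target.mem_nhds ((chartAt R4 x).map_source hx))).div
      ((cOn_top22 hω hω).continuousAt
        ((chartAt R4 x).open_target.mem_nhds ((chartAt R4 x).map_source hx)))
      (W_view G hc θ η hθ.1 hη.1 ((chartAt R4 x).map_source hx)).1
  refine (hq.comp ((chartAt R4 x).continuousAt hx)).congr ?_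
  refine Filter.eventually_of_mem ((chartAt R4 x).open_source.mem_nhds hx) fun z hz => ?_
  have h := (W_view G hc θ η hθ.1 hη.1 ((chartAt R4 x).map_source hz)).2
  rw [(chartAt R4 x).left_inv hz] at h
  exact h.symm

lemma W_smooth {θ η : X → Bil} (hθ : Smooth2 θ) (hη : Smooth2 η) :
    ContMDiff 𝓘(ℝ, R4) 𝓘(ℝ, ℝ) ∞ fun x => G.W x (θ x) (η x) := fun x => by
  have hx := mem_chart_source R4 x
  have hc := atl_chartAt x
  have hy := (chartAt R4 x).map_source hx
  have hω := smooth_view2 G.omega_smooth hc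
  have hq : ContDiffAt ℝ ∞ (fun y => top22 (view2 (chartAt R4 x) θ y) (view2 (chartAt R4 x) η y) /
      top22 (view2 (chartAt R4 x) G.omega y) (view2 (chartAt R4 x) G.omega y)) (chartAt R4 x x) :=
    ((cdOn_top22 (smooth_view2 hθ hc) (smooth_view2 hη hc)).contDiffAt
      ((chartAt R4 x).open_target.mem_nhds hy)).div
      ((cdOn_top22 hω hω).contDiffAt ((chartAt R4 x).open_target.mem_nhds hy))
      (W_view G hc θ η hθ.1 hη.1 hy).1
  refine (hq.contMDiffAt.comp x (contMDiffAt_of_mem_maximalAtlas hc hx)).congr_of_eventuallyEq ?_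
  refine Filter.eventually_of_mem ((chartAt R4 x).open_source.mem_nhds hx) fun z hz => ?_
  have h := (W_view G hc θ η hθ.1 hη.1 ((chartAt R4 x).map_source hz)).2
  rw [(chartAt R4 x).left_inv hz] at h
  exact h

/-! ### The partition of unity -/

/-- A closed coordinate ball of the atlas. -/
def K (i : Fin G.n) (r : ℝ) : Set X := (G.c i).symm '' Metric.closedBall 0 r

lemma closedBall_subset_target (i : Fin G.n) {r : ℝ} (hr : r < 4) :
    Metric.closedBall (0 : R4) r ⊆ (G.c i).target := by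
  rw [G.c_target]
  exact Metric.closedBall_subset_ball hr

lemma isCompact_K (i : Fin G.n) {r : ℝ} (hr : r < 4) : IsCompact (K G i r) :=
  (isCompact_closedBall _ _).image_of_continuousOn
    ((G.c i).continuousOn_symm.mono (closedBall_subset_target G i hr))

lemma mem_K {i : Fin G.n} {r : ℝ} (hr : r < 4) {x : X} :
    x ∈ K G i r ↔ x ∈ (G.c i).source ∧ ‖G.c i x‖ ≤ r := by
  constructor
  · rintro ⟨y, hy, rfl⟩
    have hy' := closedBall_subset_target G i hr hy
    refine ⟨(G.c i).map_target hy', ?_⟩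
    rw [(G.c i).right_inv hy']
    exact mem_closedBall_zero_iff.1 hy
  · rintro ⟨hx, hn⟩
    exact ⟨G.c i x, mem_closedBall_zero_iff.2 hn, (G.c i).left_inv hx⟩

lemma coreFun_pos {i : Fin G.n} {x : X} (hx : x ∈ (G.c i).source) :
    G.coreFun i x = coreBump (G.c i x) := indicator_of_mem hx _

lemma coreFun_nonneg (i : Fin G.n) (x : X) : 0 ≤ G.coreFun i x :=
  indicator_nonneg (fun _ _ => coreBump.nonneg) x

lemma coreFun_supp {i : Fin G.n} {x : X} (h : G.coreFun i x ≠ 0) :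
    x ∈ (G.c i).source ∧ ‖G.c i x‖ < 2 := by
  by_cases hx : x ∈ (G.c i).source
  · rw [coreFun_pos G hx] at h
    have h' : G.c i x ∈ Function.support (coreBump : R4 → ℝ) := h
    rw [coreBump.support_eq] at h'
    exact ⟨hx, mem_ball_zero_iff.1 h'⟩
  · exact absurd (indicator_of_notMem hx _) h

lemma sum_coreFun_pos (x : X) : 0 < ∑ k, G.coreFun k x := by
  obtain ⟨i, hx, hn⟩ := G.c_cover x
  refine lt_of_lt_of_le ?_ (Finset.single_le_sum (fun k _ => coreFun_nonneg G k x) (Finset.mem_univ i))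
  rw [coreFun_pos G hx, coreBump.one_of_mem_closedBall (mem_closedBall_zero_iff.2 hn)]
  exact one_pos

lemma rho_nonneg (i : Fin G.n) (x : X) : 0 ≤ G.rho i x :=
  div_nonneg (coreFun_nonneg G i x) (sum_coreFun_pos G x).le

lemma rho_sum (x : X) : ∑ i, G.rho i x = 1 := by
  simp only [Geo.rho]
  rw [← Finset.sum_div, div_self (sum_coreFun_pos G x).ne']

lemma rho_supp (i : Fin G.n) (x : X) (h : G.rho i x ≠ 0) :
    x ∈ (G.c i).source ∧ ‖G.c i x‖ < 2 :=
  coreFun_supp G fun h0 => h (by rw [Geo.rho, h0, zero_div])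

lemma rho_mem_K {i : Fin G.n} {x : X} (h : G.rho i x ≠ 0) : x ∈ K G i 2 :=
  (mem_K G (by norm_num)).2 ⟨(rho_supp G i x h).1, (rho_supp G i x h).2.le⟩

variable [T2Space X]

lemma isClosed_K (i : Fin G.n) {r : ℝ} (hr : r < 4) : IsClosed (K G i r) :=
  (isCompact_K G i hr).isClosed

lemma coreFun_smooth (i : Fin G.n) : ContMDiff 𝓘(ℝ, R4) 𝓘(ℝ, ℝ) ∞ (G.coreFun i) := fun x => by
  by_cases hx : x ∈ (G.c i).source
  · refine (coreBump.contDiff.contDiffAt.contMDiffAt.comp x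
      (contMDiffAt_of_mem_maximalAtlas (G.c_mem i) hx)).congr_of_eventuallyEq ?_
    exact Filter.eventually_of_mem ((G.c i).open_source.mem_nhds hx) fun z hz => coreFun_pos G hz
  · have hnot : x ∉ K G i 2 := fun h => hx ((mem_K G (by norm_num)).1 h).1
    refine (contMDiffAt_const (c := (0 : ℝ))).congr_of_eventuallyEq ?_
    refine Filter.eventually_of_mem ((isClosed_K G i (by norm_num)).isOpen_compl.mem_nhds hnot)
      fun z hz => ?_
    by_contra h
    exact hz ((mem_K G (by norm_num)).2 ⟨(coreFun_supp G h).1, (coreFun_supp G h).2.le⟩)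

lemma rho_smooth (i : Fin G.n) : ContMDiff 𝓘(ℝ, R4) 𝓘(ℝ, ℝ) ∞ (G.rho i) :=
  (coreFun_smooth G i).div₀ (contMDiff_finsetSum fun k _ => coreFun_smooth G k)
    fun x => (sum_coreFun_pos G x).ne'

/-! ### Fibre norms -/

lemma nrm2_cont {θ : X → Bil} (hθ : Cont2 θ) : Continuous (G.nrm2 θ) := by
  refine continuous_finsetSum _ fun i _ => continuous_iff_continuousAt.2 fun x => ?_
  by_cases hx : x ∈ (G.c i).source
  · exact (rho_smooth G i).continuous.continuousAt.mul
      (((cont_view2 hθ (G.c_mem i)).continuousAt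
        ((G.c i).open_target.mem_nhds ((G.c i).map_source hx))).comp ((G.c i).continuousAt hx)).norm
  · have hnot : x ∉ K G i 2 := fun h => hx ((mem_K G (by norm_num)).1 h).1
    refine (continuousAt_const (y := (0 : ℝ))).congr (EventuallyEq.symm ?_)
    refine Filter.eventually_of_mem ((isClosed_K G i (by norm_num)).isOpen_compl.mem_nhds hnot)
      fun z hz => ?_
    have h0 : G.rho i z = 0 := by
      by_contra h
      exact hz (rho_mem_K G h)
    simp [h0]

/-- The set on which both charts `i`, `k` read within radius three. -/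
def S (i k : Fin G.n) : Set R4 := Metric.closedBall 0 3 ∩ (G.c i).symm ⁻¹' K G k 3

lemma S_subset (i k : Fin G.n) :
    S G i k ⊆ tdom (G.c i) (G.c k) ∩ trans (G.c i) (G.c k) ⁻¹' Metric.ball 0 (7 / 2) :=
  fun y hy => by
  obtain ⟨h1, h2⟩ := (mem_K G (by norm_num)).1 hy.2
  exact ⟨⟨closedBall_subset_target G i (by norm_num) hy.1, h1⟩,
    mem_ball_zero_iff.2 (lt_of_le_of_lt h2 (by norm_num))⟩

lemma isCompact_S (i k : Fin G.n) : IsCompact (S G i k) :=
  (isCompact_closedBall _ _).of_isClosed_subset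
    (((G.c i).continuousOn_symm.mono
      (closedBall_subset_target G i (by norm_num))).preimage_isClosed_of_isClosed
      Metric.isClosed_closedBall (isClosed_K G k (by norm_num))) inter_subset_left

lemma mem_S {i k : Fin G.n} {x : X} (hi : x ∈ (G.c i).source) (hin : ‖G.c i x‖ ≤ 3)
    (hk : x ∈ (G.c k).source) (hkn : ‖G.c k x‖ ≤ 3) : G.c i x ∈ S G i k :=
  ⟨mem_closedBall_zero_iff.2 hin, by
    show (G.c i).symm (G.c i x) ∈ K G k 3
    rw [(G.c i).left_inv hi]
    exact (mem_K G (by norm_num)).2 ⟨hk, hkn⟩⟩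

lemma dtrans_bound : ∃ M : ℝ, 1 ≤ M ∧ ∀ i k, ∀ y ∈ S G i k,
    ‖dtrans (G.c i) (G.c k) y‖ ≤ M := by
  have h : ∀ p : Fin G.n × Fin G.n, ∃ C, ∀ y ∈ S G p.1 p.2,
      ‖dtrans (G.c p.1) (G.c p.2) y‖ ≤ C := fun p =>
    (isCompact_S G p.1 p.2).exists_bound_of_continuousOn
      ((contDiffOn_dtrans (G.c_mem _) (G.c_mem _)).continuousOn.mono
        fun y hy => (S_subset G _ _ hy).1)
  choose C hC using h
  obtain ⟨M, hM⟩ := Finite.exists_le C
  exact ⟨max M 1, le_max_right _ _, fun i k y hy =>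
    ((hC (i, k) y hy).trans (hM _)).trans (le_max_left _ _)⟩

/-- Two charts read a two-form with comparable norms. -/
lemma view2_compare {M : ℝ} (hM : ∀ i k, ∀ y ∈ S G i k, ‖dtrans (G.c i) (G.c k) y‖ ≤ M)
    (θ : X → Bil) {i k : Fin G.n} {x : X} (hi : x ∈ (G.c i).source) (hin : ‖G.c i x‖ ≤ 3)
    (hk : x ∈ (G.c k).source) (hkn : ‖G.c k x‖ ≤ 3) :
    ‖view2 (G.c i) θ (G.c i x)‖ ≤ M ^ 2 * ‖view2 (G.c k) θ (G.c k x)‖ := by
  have hS := mem_S G hi hin hk hkn
  rw [view2_trans (G.c_mem i) (G.c_mem k) θ (S_subset G i k hS).1, trans, (G.c i).left_inv hi]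
  refine (norm_pullBil_le _ _).trans ?_
  gcongr
  exact hM i k _ hS

lemma nrm2_view : ∃ C : ℝ, 1 ≤ C ∧ ∀ i (θ : X → Bil) (y : R4), ‖y‖ ≤ 3 →
    ‖view2 (G.c i) θ y‖ ≤ C * G.nrm2 θ ((G.c i).symm y) ∧
      G.nrm2 θ ((G.c i).symm y) ≤ C * ‖view2 (G.c i) θ y‖ := by
  obtain ⟨M, hM1, hM⟩ := dtrans_bound G
  refine ⟨M ^ 2, one_le_pow₀ hM1, fun i θ y hy => ?_⟩
  have hyt := closedBall_subset_target G i (by norm_num) (mem_closedBall_zero_iff.2 hy)
  have hx := (G.c i).map_target hyt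
  have hri := (G.c i).right_inv hyt
  set x := (G.c i).symm y with hxdef
  have hin : ‖G.c i x‖ ≤ 3 := by rw [hri]; exact hy
  constructor
  · calc ‖view2 (G.c i) θ y‖ = ∑ k, G.rho k x * ‖view2 (G.c i) θ (G.c i x)‖ := by
          rw [← Finset.sum_mul, rho_sum G x, one_mul, hri]
      _ ≤ ∑ k, G.rho k x * (M ^ 2 * ‖view2 (G.c k) θ (G.c k x)‖) := by
          refine Finset.sum_le_sum fun k _ => ?_
          rcases eq_or_ne (G.rho k x) 0 with h | h
          · simp [h]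
          · exact mul_le_mul_of_nonneg_left (view2_compare G hM θ hx hin (rho_supp G k x h).1
              ((rho_supp G k x h).2.le.trans (by norm_num))) (rho_nonneg G k x)
      _ = M ^ 2 * G.nrm2 θ x := by
          rw [Geo.nrm2, Finset.mul_sum]
          exact Finset.sum_congr rfl fun k _ => by ring
  · calc G.nrm2 θ x ≤ ∑ k, G.rho k x * (M ^ 2 * ‖view2 (G.c i) θ (G.c i x)‖) := by
          refine Finset.sum_le_sum fun k _ => ?_
          rcases eq_or_ne (G.rho k x) 0 with h | h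
          · simp [h]
          · exact mul_le_mul_of_nonneg_left (view2_compare G hM θ (rho_supp G k x h).1
              ((rho_supp G k x h).2.le.trans (by norm_num)) hx hin) (rho_nonneg G k x)
      _ = M ^ 2 * ‖view2 (G.c i) θ y‖ := by
          rw [← Finset.sum_mul, rho_sum G x, one_mul, hri]

/-! ### The sets `near` -/

/-- One step from a chart to another. -/
lemma coord_step : ∃ L r0 : ℝ, 1 ≤ L ∧ 0 < r0 ∧ ∀ (i k : Fin G.n) (x z : X) (r : ℝ), r ≤ r0 →
    x ∈ (G.c i).source → ‖G.c i x‖ ≤ 3 → x ∈ (G.c k).source → ‖G.c k x‖ ≤ 3 →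
    z ∈ (G.c i).source → ‖G.c i z - G.c i x‖ ≤ r →
      z ∈ (G.c k).source ∧ ‖G.c k z - G.c k x‖ ≤ L * r := by
  have h : ∀ p : Fin G.n × Fin G.n, ∃ δ C : ℝ, 0 < δ ∧ ∀ y ∈ S G p.1 p.2, ∀ w : R4,
      ‖w - y‖ ≤ δ → w ∈ tdom (G.c p.1) (G.c p.2) ∧
        ‖trans (G.c p.1) (G.c p.2) w - trans (G.c p.1) (G.c p.2) y‖ ≤ C * ‖w - y‖ := by
    intro p
    have hc := contDiffOn_trans (G.c_mem p.1) (G.c_mem p.2)
    obtain ⟨δ, hδ, hsub⟩ := (isCompact_S G p.1 p.2).exists_cthickening_subset_open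
      (hc.continuousOn.isOpen_inter_preimage (isOpen_tdom _ _) Metric.isOpen_ball)
      (S_subset G p.1 p.2)
    obtain ⟨C, hC⟩ := (isCompact_S G p.1 p.2).cthickening.exists_bound_of_continuousOn
      ((contDiffOn_dtrans (G.c_mem p.1) (G.c_mem p.2)).continuousOn.mono
        fun y hy => (hsub hy).1)
    refine ⟨δ, C, hδ, fun y hy w hw => ?_⟩
    have hb : Metric.closedBall y δ ⊆ Metric.cthickening δ (S G p.1 p.2) :=
      Metric.closedBall_subset_cthickening hy δ
    have hwb : w ∈ Metric.closedBall y δ := by rwa [Metric.mem_closedBall, dist_eq_norm]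
    refine ⟨(hsub (hb hwb)).1, ?_⟩
    exact (convex_closedBall y δ).norm_image_sub_le_of_norm_hasFDerivWithin_le
      (fun v hv => (hasFDerivAt_trans (G.c_mem p.1) (G.c_mem p.2)
        (hsub (hb hv)).1).hasFDerivWithinAt)
      (fun v hv => hC v (hb hv)) (Metric.mem_closedBall_self hδ.le) hwb
  choose δ C hδ hC using h
  obtain ⟨M, hM⟩ := Finite.exists_le C
  obtain ⟨R, hR⟩ := Finite.exists_le fun p => (δ p)⁻¹
  refine ⟨max M 1, (max R 1)⁻¹, le_max_right _ _, by positivity,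
    fun i k x z r hr hxi hxin hxk hxkn hzi hzr => ?_⟩
  have hrδ : r ≤ δ (i, k) := hr.trans (by
    rw [inv_le_comm₀ (by positivity) (hδ _)]
    exact (hR (i, k)).trans (le_max_left _ _))
  obtain ⟨h1, h2⟩ := hC (i, k) _ (mem_S G hxi hxin hxk hxkn) (G.c i z) (hzr.trans hrδ)
  have hz : z ∈ (G.c k).source := by
    have := h1.2
    rwa [mem_preimage, (G.c i).left_inv hzi] at this
  refine ⟨hz, ?_⟩
  rw [trans, trans, (G.c i).left_inv hzi, (G.c i).left_inv hxi] at h2
  calc ‖G.c k z - G.c k x‖ ≤ C (i, k) * ‖G.c i z - G.c i x‖ := h2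
    _ ≤ max M 1 * ‖G.c i z - G.c i x‖ :=
        mul_le_mul_of_nonneg_right ((hM _).trans (le_max_left _ _)) (norm_nonneg _)
    _ ≤ max M 1 * r := mul_le_mul_of_nonneg_left hzr (zero_le_one.trans (le_max_right _ _))

omit [T2Space X] in
lemma near_symm (r : ℝ) (x z : X) (h : z ∈ G.near r x) : x ∈ G.near r z := by
  obtain ⟨i, h1, h2, h3, h4, h5⟩ := h
  exact ⟨i, h2, h1, h4, h3, by rwa [norm_sub_rev]⟩

omit [T2Space X] in
lemma near_self (r : ℝ) (x : X) (hr : 0 ≤ r) : x ∈ G.near r x := by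
  obtain ⟨i, h1, h2⟩ := G.c_cover x
  exact ⟨i, h1, h1, h2.trans (by norm_num), h2.trans (by norm_num), by simpa using hr⟩

lemma near_closed (r : ℝ) : IsClosed {p : X × X | p.2 ∈ G.near r p.1} := by
  have he : {p : X × X | p.2 ∈ G.near r p.1} = ⋃ i, ((K G i 3 ×ˢ K G i 3) ∩
      (fun p => G.c i p.1 - G.c i p.2) ⁻¹' Metric.closedBall 0 r) := by
    ext p
    simp only [mem_setOf_eq, Geo.near, mem_iUnion, mem_inter_iff, mem_prod, mem_preimage,
      mem_K G (show (3 : ℝ) < 4 by norm_num), mem_closedBall_zero_iff]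
    constructor
    · rintro ⟨i, h1, h2, h3, h4, h5⟩
      exact ⟨i, ⟨⟨h1, h3⟩, h2, h4⟩, h5⟩
    · rintro ⟨i, ⟨⟨h1, h3⟩, h2, h4⟩, h5⟩
      exact ⟨i, h1, h2, h3, h4, h5⟩
  rw [he]
  refine isClosed_iUnion_of_finite fun i => ?_
  have h3 : (3 : ℝ) < 4 := by norm_num
  have hc : ContinuousOn (G.c i) (K G i 3) :=
    (G.c i).continuousOn.mono fun x hx => ((mem_K G h3).1 hx).1
  exact ((hc.comp continuousOn_fst fun p hp => hp.1).sub
    (hc.comp continuousOn_snd fun p hp => hp.2)).preimage_isClosed_of_isClosed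
    ((isClosed_K G i h3).prod (isClosed_K G i h3)) Metric.isClosed_closedBall

lemma near_trans : ∃ C r0 : ℝ, 1 ≤ C ∧ 0 < r0 ∧ ∀ a b x y z, 0 ≤ a → 0 ≤ b → a + b ≤ r0 →
    y ∈ G.near a x → z ∈ G.near b y → z ∈ G.near (C * (a + b)) x := by
  obtain ⟨L, r0, hL, hr0, hstep⟩ := coord_step G
  refine ⟨L, min r0 L⁻¹, hL, lt_min hr0 (by positivity), fun a b x y z ha hb hab hy hz => ?_⟩
  obtain ⟨i, hxi, hyi, -, hyi3, hxy⟩ := hy
  obtain ⟨k, hyk, hzk, hyk3, -, hyz⟩ := hz
  obtain ⟨j, hyj, hyj1⟩ := G.c_cover y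
  have hab0 := hab.trans (min_le_left _ _)
  obtain ⟨hxj, hx'⟩ := hstep i j y x a (by linarith) hyi hyi3 hyj (hyj1.trans (by norm_num)) hxi hxy
  obtain ⟨hzj, hz'⟩ := hstep k j y z b (by linarith) hyk hyk3 hyj (hyj1.trans (by norm_num)) hzk
    (by rwa [norm_sub_rev])
  have h1 : L * (a + b) ≤ 1 := by
    have h := mul_le_mul_of_nonneg_left (hab.trans (min_le_right r0 L⁻¹)) (by linarith : (0 : ℝ) ≤ L)
    rwa [mul_inv_cancel₀ (by linarith : L ≠ 0)] at h
  refine ⟨j, hxj, hzj, ?_, ?_, ?_⟩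
  · calc ‖G.c j x‖ = ‖G.c j y + (G.c j x - G.c j y)‖ := by rw [add_sub_cancel]
      _ ≤ ‖G.c j y‖ + ‖G.c j x - G.c j y‖ := norm_add_le _ _
      _ ≤ 3 := by nlinarith
  · calc ‖G.c j z‖ = ‖G.c j y + (G.c j z - G.c j y)‖ := by rw [add_sub_cancel]
      _ ≤ ‖G.c j y‖ + ‖G.c j z - G.c j y‖ := norm_add_le _ _
      _ ≤ 3 := by nlinarith
  · calc ‖G.c j x - G.c j z‖ ≤ ‖G.c j x - G.c j y‖ + ‖G.c j y - G.c j z‖ :=
          norm_sub_le_norm_sub_add_norm_sub _ _ _
      _ ≤ L * (a + b) := by rw [norm_sub_rev (G.c j y)]; linarith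

lemma near_chart : ∃ C r0 : ℝ, 1 ≤ C ∧ 0 < r0 ∧ ∀ i x r, 0 ≤ r → r ≤ r0 →
    x ∈ (G.c i).source → ‖G.c i x‖ ≤ 5 / 2 →
      (G.c i).source ∩ G.c i ⁻¹' Metric.closedBall (G.c i x) r ⊆ G.near r x ∧
        G.near r x ⊆ (G.c i).source ∩ G.c i ⁻¹' Metric.closedBall (G.c i x) (C * r) := by
  obtain ⟨L, r0, hL, hr0, hstep⟩ := coord_step G
  refine ⟨L, min r0 (1 / 2), hL, lt_min hr0 (by norm_num),
    fun i x r _ hr hxi hx5 => ⟨?_, ?_⟩⟩
  · rintro z ⟨hzi, hz⟩
    rw [mem_preimage, Metric.mem_closedBall, dist_eq_norm] at hz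
    refine ⟨i, hxi, hzi, hx5.trans (by norm_num), ?_, by rwa [norm_sub_rev]⟩
    calc ‖G.c i z‖ = ‖G.c i x + (G.c i z - G.c i x)‖ := by rw [add_sub_cancel]
      _ ≤ ‖G.c i x‖ + ‖G.c i z - G.c i x‖ := norm_add_le _ _
      _ ≤ 3 := by linarith [hr.trans (min_le_right r0 (1 / 2))]
  · rintro z ⟨k, hxk, hzk, hxk3, -, hzr⟩
    obtain ⟨hzi, hzn⟩ := hstep k i x z r (hr.trans (min_le_left _ _)) hxk hxk3 hxi
      (hx5.trans (by norm_num)) hzk (by rwa [norm_sub_rev])
    exact ⟨hzi, by rwa [mem_preimage, Metric.mem_closedBall, dist_eq_norm]⟩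

end Vale.Agent.P204.Full.Base
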