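import Vale.Agent.P204.Full.Defs

/-!
# P204 Base: charts, transition maps and the chain rule for the views
-/

open scoped Manifold ContDiff Topology
open Set Filter

noncomputable section

namespace Vale.Agent.P204.Full.Base

universe u

variable {X : Type u} [TopologicalSpace X] [ChartedSpace R4 X]

/-- The differential of a chart, as an endomorphism of the model space. -/
def dchart (c : OpenPartialHomeomorph X R4) (x : X) : Endo :=
  mfderiv 𝓘(ℝ, R4) 𝓘(ℝ, R4) c x

/-- The transition map from the chart `c` to the chart `e`. -/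
def trans (c e : OpenPartialHomeomorph X R4) (y : R4) : R4 := e (c.symm y)

/-- Its differential. -/
def dtrans (c e : OpenPartialHomeomorph X R4) (y : R4) : Endo := fderiv ℝ (trans c e) y

/-- Its domain. -/
def tdom (c e : OpenPartialHomeomorph X R4) : Set R4 := c.target ∩ c.symm ⁻¹' e.source

lemma isOpen_tdom (c e : OpenPartialHomeomorph X R4) : IsOpen (tdom c e) :=
  c.continuousOn_symm.isOpen_inter_preimage c.open_target e.open_source

lemma mem_tdom {c e : OpenPartialHomeomorph X R4} {x : X} (hc : x ∈ c.source) (he : x ∈ e.source) :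
    c x ∈ tdom c e :=
  ⟨c.map_source hc, by simpa [c.left_inv hc] using he⟩

lemma trans_mem {c e : OpenPartialHomeomorph X R4} {y : R4} (hy : y ∈ tdom c e) :
    trans c e y ∈ tdom e c :=
  mem_tdom hy.2 (c.map_target hy.1)

lemma trans_trans {c e : OpenPartialHomeomorph X R4} {y : R4} (hy : y ∈ tdom c e) :
    trans e c (trans c e y) = y := by
  rw [trans, trans, e.left_inv hy.2, c.right_inv hy.1]

lemma symm_trans {c e : OpenPartialHomeomorph X R4} {y : R4} (hy : y ∈ tdom c e) :
    e.symm (trans c e y) = c.symm y := e.left_inv hy.2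

variable [IsManifold 𝓘(ℝ, R4) ∞ X]

/-- Membership in the maximal atlas. -/
abbrev Atl (c : OpenPartialHomeomorph X R4) : Prop :=
  c ∈ IsManifold.maximalAtlas 𝓘(ℝ, R4) ∞ X

lemma atl_chartAt (x : X) : Atl (chartAt R4 x) := IsManifold.chart_mem_maximalAtlas x

lemma mdiffAt_symm {c : OpenPartialHomeomorph X R4} (hc : Atl c) {y : R4} (hy : y ∈ c.target) :
    MDifferentiableAt 𝓘(ℝ, R4) 𝓘(ℝ, R4) c.symm y :=
  ((contMDiffOn_symm_of_mem_maximalAtlas hc).contMDiffAt (c.open_target.mem_nhds hy)).mdifferentiableAt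
    (by simp)

lemma mdiffAt_chart {c : OpenPartialHomeomorph X R4} (hc : Atl c) {x : X} (hx : x ∈ c.source) :
    MDifferentiableAt 𝓘(ℝ, R4) 𝓘(ℝ, R4) c x :=
  (contMDiffAt_of_mem_maximalAtlas hc hx).mdifferentiableAt (by simp)

lemma contDiffOn_trans {c e : OpenPartialHomeomorph X R4} (hc : Atl c) (he : Atl e) :
    ContDiffOn ℝ ∞ (trans c e) (tdom c e) :=
  contMDiffOn_iff_contDiffOn.1 <| (contMDiffOn_of_mem_maximalAtlas he).comp
    ((contMDiffOn_symm_of_mem_maximalAtlas hc).mono inter_subset_left) inter_subset_right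

lemma contDiffAt_trans {c e : OpenPartialHomeomorph X R4} (hc : Atl c) (he : Atl e) {y : R4}
    (hy : y ∈ tdom c e) : ContDiffAt ℝ ∞ (trans c e) y :=
  (contDiffOn_trans hc he).contDiffAt ((isOpen_tdom c e).mem_nhds hy)

lemma hasFDerivAt_trans {c e : OpenPartialHomeomorph X R4} (hc : Atl c) (he : Atl e) {y : R4}
    (hy : y ∈ tdom c e) : HasFDerivAt (trans c e) (dtrans c e y) y :=
  ((contDiffAt_trans hc he hy).differentiableAt (by simp)).hasFDerivAt

lemma contDiffOn_dtrans {c e : OpenPartialHomeomorph X R4} (hc : Atl c) (he : Atl e) :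
    ContDiffOn ℝ ∞ (dtrans c e) (tdom c e) :=
  (contDiffOn_trans hc he).fderiv_of_isOpen (isOpen_tdom c e) (by simp)

/-- The chain rule for inverse charts. -/
lemma dsymm_trans {c e : OpenPartialHomeomorph X R4} (hc : Atl c) (he : Atl e) {y : R4}
    (hy : y ∈ tdom c e) :
    dsymm c y = (dsymm e (trans c e y)).comp (dtrans c e y) := by
  have hev : c.symm =ᶠ[𝓝 y] e.symm ∘ trans c e :=
    Filter.eventually_of_mem ((isOpen_tdom c e).mem_nhds hy) fun z hz => (symm_trans hz).symm
  have h := mfderiv_comp (I := 𝓘(ℝ, R4)) (I' := 𝓘(ℝ, R4)) (I'' := 𝓘(ℝ, R4)) y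
    (mdiffAt_symm he (trans_mem hy).1)
    ((hasFDerivAt_trans hc he hy).differentiableAt.mdifferentiableAt)
  rw [mfderiv_eq_fderiv] at h
  show mfderiv 𝓘(ℝ, R4) 𝓘(ℝ, R4) c.symm y = _
  rw [hev.mfderiv_eq]
  exact h

lemma dchart_comp_dsymm {c : OpenPartialHomeomorph X R4} (hc : Atl c) {y : R4}
    (hy : y ∈ c.target) :
    (dchart c (c.symm y)).comp (dsymm c y) = ContinuousLinearMap.id ℝ R4 := by
  have hev : c ∘ c.symm =ᶠ[𝓝 y] id :=
    Filter.eventually_of_mem (c.open_target.mem_nhds hy) fun z hz => c.right_inv hz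
  have h := mfderiv_comp (I := 𝓘(ℝ, R4)) (I' := 𝓘(ℝ, R4)) (I'' := 𝓘(ℝ, R4)) y
    (mdiffAt_chart hc (c.map_target hy)) (mdiffAt_symm hc hy)
  rw [hev.mfderiv_eq, mfderiv_id] at h
  exact h.symm

lemma dsymm_comp_dchart {c : OpenPartialHomeomorph X R4} (hc : Atl c) {x : X}
    (hx : x ∈ c.source) :
    (dsymm c (c x)).comp (dchart c x) = ContinuousLinearMap.id ℝ R4 := by
  have hev : c.symm ∘ c =ᶠ[𝓝 x] id :=
    Filter.eventually_of_mem (c.open_source.mem_nhds hx) fun z hz => c.left_inv hz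
  have h := mfderiv_comp (I := 𝓘(ℝ, R4)) (I' := 𝓘(ℝ, R4)) (I'' := 𝓘(ℝ, R4)) x
    (mdiffAt_symm hc (c.map_source hx)) (mdiffAt_chart hc hx)
  rw [hev.mfderiv_eq, mfderiv_id] at h
  exact h.symm

lemma dchart_chartAt (x : X) : dchart (chartAt R4 x) x = ContinuousLinearMap.id ℝ R4 := by
  have hev : (fun z => chartAt R4 x ((chartAt R4 x).symm z)) =ᶠ[𝓝 (chartAt R4 x x)] id :=
    Filter.eventually_of_mem
      ((chartAt R4 x).open_target.mem_nhds ((chartAt R4 x).map_source (mem_chart_source R4 x)))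
      fun z hz => (chartAt R4 x).right_inv hz
  show mfderiv 𝓘(ℝ, R4) 𝓘(ℝ, R4) (chartAt R4 x) x = _
  rw [(mdiffAt_chart (atl_chartAt x) (mem_chart_source R4 x)).mfderiv]
  simp only [writtenInExtChartAt, extChartAt, mfld_simps]
  rw [fderivWithin_univ]
  exact hev.fderiv_eq.trans fderiv_id

lemma dsymm_chartAt (x : X) :
    dsymm (chartAt R4 x) (chartAt R4 x x) = ContinuousLinearMap.id ℝ R4 := by
  simpa [dchart_chartAt] using dsymm_comp_dchart (atl_chartAt x) (mem_chart_source R4 x)

/-! ### Pull-backs -/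

@[simp] lemma pullBil_apply (A : Endo) (b : Bil) (u v : R4) :
    pullBil A b u v = b (A u) (A v) := rfl

@[simp] lemma pullCov_apply (A : Endo) (a : Cov) (u : R4) : pullCov A a u = a (A u) := rfl

lemma pullBil_comp (A B : Endo) (b : Bil) : pullBil (A.comp B) b = pullBil B (pullBil A b) := rfl

lemma pullCov_comp (A B : Endo) (a : Cov) : pullCov (A.comp B) a = pullCov B (pullCov A a) := rfl

lemma isAlt_pullBil {b : Bil} (hb : IsAlt b) (A : Endo) : IsAlt (pullBil A b) :=
  fun u v => hb (A u) (A v)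

omit [IsManifold 𝓘(ℝ, R4) ∞ X] in
lemma view1_self_aux (α : X → Cov) (x : X) (h : dsymm (chartAt R4 x) (chartAt R4 x x) =
    ContinuousLinearMap.id ℝ R4) : view1 (chartAt R4 x) α (chartAt R4 x x) = α x := by
  rw [view1, h, (chartAt R4 x).left_inv (mem_chart_source R4 x)]
  rfl

lemma view1_self (α : X → Cov) (x : X) : view1 (chartAt R4 x) α (chartAt R4 x x) = α x :=
  view1_self_aux α x (dsymm_chartAt x)

lemma view2_self (θ : X → Bil) (x : X) : view2 (chartAt R4 x) θ (chartAt R4 x x) = θ x := by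
  rw [view2, dsymm_chartAt, (chartAt R4 x).left_inv (mem_chart_source R4 x)]
  rfl

lemma view1_trans {c e : OpenPartialHomeomorph X R4} (hc : Atl c) (he : Atl e) (α : X → Cov)
    {y : R4} (hy : y ∈ tdom c e) :
    view1 c α y = pullCov (dtrans c e y) (view1 e α (trans c e y)) := by
  rw [view1, view1, symm_trans hy, dsymm_trans hc he hy, pullCov_comp]

lemma view2_trans {c e : OpenPartialHomeomorph X R4} (hc : Atl c) (he : Atl e) (θ : X → Bil)
    {y : R4} (hy : y ∈ tdom c e) :
    view2 c θ y = pullBil (dtrans c e y) (view2 e θ (trans c e y)) := by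
  rw [view2, view2, symm_trans hy, dsymm_trans hc he hy, pullBil_comp]

/-! ### Smoothness of pull-backs -/

lemma contDiff_bilinearComp :
    ContDiff ℝ ∞ fun p : Endo × Bil => pullBil p.1 p.2 := by
  rw [contDiff_clm_apply_iff]
  intro u
  rw [contDiff_clm_apply_iff]
  intro v
  simp only [pullBil_apply]
  exact ((contDiff_snd.clm_apply (contDiff_fst.clm_apply contDiff_const)).clm_apply
    (contDiff_fst.clm_apply contDiff_const))

lemma contDiff_covComp : ContDiff ℝ ∞ fun p : Endo × Cov => pullCov p.1 p.2 :=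
  contDiff_snd.clm_comp contDiff_fst

end Vale.Agent.P204.Full.Base
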