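import Vale.Agent.P204.Full.Base.Volume

/-!
# P204 Base: closed forms pair to zero with exact ones, and conversely
-/

open scoped Manifold ContDiff Topology
open Set Filter MeasureTheory

noncomputable section

namespace Vale.Agent.P204.Full.Base

universe u

/-- Extension of a field from the coordinate ball by zero. -/
lemma cd_extend {E : Type*} [NormedAddCommGroup E] [NormedSpace ℝ E] {f : R4 → E} {s : Set R4}
    {n : ℕ∞ω} (hs : IsOpen s) (hf : ContDiffOn ℝ n f s) {K : Set R4} (hK : IsClosed K)
    (hKs : K ⊆ s) (h0 : ∀ y, y ∉ K → f y = 0) : ContDiff ℝ n f :=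
  contDiff_iff_contDiffAt.2 fun y => by
    by_cases hy : y ∈ s
    · exact hf.contDiffAt (hs.mem_nhds hy)
    · exact cdAt_zero (Filter.eventually_of_mem
        (hK.isOpen_compl.mem_nhds fun h => hy (hKs h)) h0)

lemma tsupport_kappa : tsupport (kappaBump : R4 → ℝ) = Metric.closedBall 0 3 :=
  kappaBump.tsupport_eq

lemma kappa_zero {y : R4} (hy : y ∉ Metric.closedBall (0 : R4) 3) : kappaBump y = 0 :=
  image_eq_zero_of_notMem_tsupport (by rwa [tsupport_kappa])

lemma kappa_one {y : R4} (hy : y ∈ Metric.closedBall (0 : R4) 2) : kappaBump y = 1 :=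
  kappaBump.one_of_mem_closedBall hy

lemma top22_right_zero (a : Bil) : top22 a 0 = 0 := by simp [top22]

lemma d1At_zero_of_eventually {β : R4 → Cov} {y : R4} (h : β =ᶠ[𝓝 y] fun _ => 0) :
    d1At β y = 0 := by
  have h1 : fderiv ℝ β y = 0 := by
    rw [h.fderiv_eq]
    exact fderiv_const_apply 0
  refine ContinuousLinearMap.ext fun u => ContinuousLinearMap.ext fun v => ?_
  simp [d1At_apply, h1]

variable {X : Type u} [TopologicalSpace X] [ChartedSpace R4 X] [IsManifold 𝓘(ℝ, R4) ∞ X]
  (G : Geo X)

lemma cd_kappa_view2 {θ : X → Bil} (hθ : Smooth2 θ) (i : Fin G.n) :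
    ContDiff ℝ ∞ fun y => kappaBump y • view2 (G.c i) θ y :=
  cd_extend (E := Bil) (G.c i).open_target
    (cdOn_smul (E := Bil) kappaBump.contDiff.contDiffOn (smooth_view2 hθ (G.c_mem i)))
    (Metric.isClosed_closedBall (x := (0 : R4)) (ε := 3))
    (closedBall_subset_target G i (by norm_num))
    fun y hy => by rw [kappa_zero hy, zero_smul]

lemma cd_kappa_view1 {α : X → Cov} (hα : Smooth1 α) (i : Fin G.n) :
    ContDiff ℝ ∞ fun y => kappaBump y • view1 (G.c i) α y :=
  cd_extend (E := Cov) (G.c i).open_target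
    (cdOn_smul (E := Cov) kappaBump.contDiff.contDiffOn (smooth_view1 hα (G.c_mem i)))
    (Metric.isClosed_closedBall (x := (0 : R4)) (ε := 3))
    (closedBall_subset_target G i (by norm_num))
    fun y hy => by rw [kappa_zero hy, zero_smul]

lemma cd_kappa_fun {φ : R4 → Bil} (i : Fin G.n) (hφ : ContDiffOn ℝ ∞ φ (G.c i).target) :
    ContDiff ℝ ∞ fun y => kappaBump y • φ y :=
  cd_extend (E := Bil) (G.c i).open_target (cdOn_smul (E := Bil) kappaBump.contDiff.contDiffOn hφ)
    (Metric.isClosed_closedBall (x := (0 : R4)) (ε := 3))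
    (closedBall_subset_target G i (by norm_num))
    fun y hy => by rw [kappa_zero hy, zero_smul]

variable [T2Space X]

lemma extD1_eq_zero {α : X → Cov} {i : Fin G.n} (hoff : ∀ x, x ∉ K G i 2 → α x = 0) {x : X}
    (hx : x ∉ K G i 2) : extD1 α x = 0 := by
  refine d1At_zero_of_eventually ?_
  refine Filter.eventually_of_mem
    (((chartAt R4 x).continuousAt_symm ((chartAt R4 x).map_source (mem_chart_source R4 x))).preimage_mem_nhds
      ((isClosed_K G i (show (2 : ℝ) < 4 by norm_num)).isOpen_compl.mem_nhds (by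
        rwa [(chartAt R4 x).left_inv (mem_chart_source R4 x)]))) fun z hz => ?_
  rw [view1, hoff _ hz]
  exact ContinuousLinearMap.zero_comp _

variable [CompactSpace X] [MeasurableSpace X] [BorelSpace X]

/-- The pairing with the differential of a form supported in one coordinate ball. -/
lemma pair_local {θ : X → Bil} (hθ : Smooth2 θ) {α : X → Cov} (hα : Smooth1 α) (i : Fin G.n)
    (hoff : ∀ x, x ∉ K G i 2 → α x = 0) :
    G.pair θ (extD1 α) = - ∫ y, top31 (fun z => kappaBump z • view2 (G.c i) θ z)
      (fun z => kappaBump z • view1 (G.c i) α z) y := by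
  have hd := smooth_extD1 hα
  have hint := pair_integrable G (smooth_cont hθ) (smooth_cont hd)
  have hz : ∀ x, G.W x (θ x) (extD1 α x) ≠ 0 → x ∈ (G.c i).source := fun x hx => by
    by_contra h
    refine hx ?_
    rw [extD1_eq_zero G hoff fun hK => h ((mem_K G (by norm_num)).1 hK).1]
    simp [Geo.W, top22_right_zero]
  have hcs : HasCompactSupport fun z => kappaBump z • view1 (G.c i) α z :=
    kappaBump.hasCompactSupport.smul_right
  rw [Geo.pair, (vol_chart G i hint hz).2,
    ← stokes (cd_kappa_view2 G hθ i) (cd_kappa_view1 G hα i) hcs]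
  have hv0 : ∀ z ∈ (G.c i).target, z ∉ Metric.closedBall (0 : R4) 2 → view1 (G.c i) α z = 0 := by
    intro z hz hz2
    have h0 : (G.c i).symm z ∉ K G i 2 := fun h => hz2 (mem_closedBall_zero_iff.2 (by
      have := ((mem_K G (by norm_num)).1 h).2
      rwa [(G.c i).right_inv hz] at this))
    rw [view1, hoff _ h0]
    exact ContinuousLinearMap.zero_comp _
  refine (setIntegral_congr_fun (G.c i).open_target.measurableSet fun y hy => ?_).trans
    (setIntegral_eq_integral_of_forall_compl_eq_zero (s := (G.c i).target) fun y hy => by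
      rw [d1At_zero_of_eventually (β := fun z => kappaBump z • view1 (G.c i) α z)
        (Filter.eventually_of_mem ((Metric.isClosed_closedBall (x := (0 : R4)) (ε := 3)).isOpen_compl.mem_nhds
          fun h => hy (closedBall_subset_target G i (show (3 : ℝ) < 4 by norm_num) h))
          fun z hz => by simp only [kappa_zero hz, zero_smul]), top22_right_zero])
  have hev : (fun z => kappaBump z • view1 (G.c i) α z) =ᶠ[𝓝 y] view1 (G.c i) α :=
    Filter.eventually_of_mem ((G.c i).open_target.mem_nhds hy) fun z hz => by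
      by_cases h2 : z ∈ Metric.closedBall (0 : R4) 2
      · simp only [kappa_one h2, one_smul]
      · simp only [hv0 z hz h2, smul_zero]
  obtain ⟨hne, hW⟩ := W_view G (G.c_mem i) θ (extD1 α) hθ.1 hd.1 hy
  rw [hW, D, div_mul_cancel₀ _ hne, d_view hα (G.c_mem i) hy, d1At_congr hev]
  by_cases h2 : y ∈ Metric.closedBall (0 : R4) 2
  · rw [kappa_one h2, one_smul]
  · rw [d1At_zero_of_eventually (Filter.eventually_of_mem
      (inter_mem ((G.c i).open_target.mem_nhds hy)
        (Metric.isClosed_closedBall.isOpen_compl.mem_nhds h2)) fun z hz => hv0 z hz.1 hz.2),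
      top22_right_zero, top22_right_zero]

omit [CompactSpace X] [MeasurableSpace X] [BorelSpace X] in
lemma extD1_rho_sum {α : X → Cov} (hα : Smooth1 α) (x : X) :
    extD1 α x = ∑ i, extD1 (fun z => G.rho i z • α z) x := by
  have hfun : view1 (chartAt R4 x) α =
      fun y => ∑ i, view1 (chartAt R4 x) (fun z => G.rho i z • α z) y := by
    funext y
    simp only [view1_smul]
    rw [← Finset.sum_smul, rho_sum, one_smul]
  have hy := (chartAt R4 x).map_source (mem_chart_source R4 x)
  have hd : ∀ i ∈ Finset.univ, DifferentiableAt ℝ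
      (view1 (chartAt R4 x) (fun z => G.rho i z • α z)) (chartAt R4 x x) := fun i _ =>
    ((smul1 (rho_smooth G i) hα x).contDiffAt
      ((chartAt R4 x).open_target.mem_nhds hy)).differentiableAt (by simp)
  refine ContinuousLinearMap.ext fun u => ContinuousLinearMap.ext fun v => ?_
  simp only [sum_apply, extD1, d1At_apply]
  rw [hfun, fderiv_fun_sum hd]
  simp only [sum_apply]
  rw [← Finset.sum_sub_distrib]

lemma pair_closed_exact {θ : X → Bil} {α : X → Cov} (hθ : Closed2 θ) (hα : Smooth1 α) :
    G.pair θ (extD1 α) = 0 := by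
  have hsum : ∀ x, G.W x (θ x) (extD1 α x) =
      ∑ i, G.W x (θ x) (extD1 (fun z => G.rho i z • α z) x) := by
    intro x
    rw [extD1_rho_sum G hα x]
    simp only [Geo.W, ← Finset.sum_div]
    congr 1
    simp only [top22, sum_apply, Finset.mul_sum, ← Finset.sum_add_distrib,
      ← Finset.sum_sub_distrib]
  rw [Geo.pair]
  simp only [hsum]
  rw [integral_finsetSum _ fun i _ => pair_integrable G (smooth_cont hθ.1)
    (smooth_cont (smooth_extD1 (smul1 (rho_smooth G i) hα)))]
  refine Finset.sum_eq_zero fun i _ => ?_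
  have hoff : ∀ x, x ∉ K G i 2 → G.rho i x • α x = 0 := fun x hx => by
    have : G.rho i x = 0 := by
      by_contra h
      exact hx (rho_mem_K G h)
    rw [this, zero_smul]
  refine (pair_local G hθ.1 (smul1 (rho_smooth G i) hα) i hoff).trans ?_
  rw [neg_eq_zero]
  refine integral_eq_zero_of_ae (Eventually.of_forall fun y => ?_)
  show top31 _ _ y = 0
  by_cases hy : y ∈ Metric.ball (0 : R4) 2
  · have hyt : y ∈ (G.c i).target :=
      closedBall_subset_target G i (show (2 : ℝ) < 4 by norm_num) (Metric.ball_subset_closedBall hy)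
    have hev : (fun z => kappaBump z • view2 (G.c i) θ z) =ᶠ[𝓝 y] view2 (G.c i) θ :=
      Filter.eventually_of_mem (Metric.isOpen_ball.mem_nhds hy) fun z hz => by
        show kappaBump z • view2 (G.c i) θ z = view2 (G.c i) θ z
        rw [kappa_one (Metric.ball_subset_closedBall hz), one_smul]
    simp only [top31, d2At_congr hev, closed_view hθ (G.c_mem i) hyt, zero_mul, sub_zero, add_zero]
  · have hz : kappaBump y • view1 (G.c i) (fun z => G.rho i z • α z) y = 0 := by
      by_cases hyt : y ∈ (G.c i).target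
      · have h0 : G.rho i ((G.c i).symm y) = 0 := by
          by_contra h
          have := (rho_supp G i _ h).2
          rw [(G.c i).right_inv hyt] at this
          exact hy (mem_ball_zero_iff.2 this)
        rw [view1_smul, h0, zero_smul, smul_zero]
      · rw [kappa_zero fun h => hyt (closedBall_subset_target G i (by norm_num) h), zero_smul]
    simp [top31, hz]

omit [T2Space X] [CompactSpace X] [MeasurableSpace X] [BorelSpace X] in
lemma closed_of_local {θ : X → Bil} (hθ : Smooth2 θ)
    (h : ∀ i, ∀ y ∈ Metric.ball (0 : R4) 2, ∀ u v w, d2At (view2 (G.c i) θ) y u v w = 0) :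
    Closed2 θ := by
  refine ⟨hθ, fun x₀ y hy u v w => ?_⟩
  obtain ⟨i, hi, hi1⟩ := G.c_cover ((chartAt R4 x₀).symm y)
  have ht : y ∈ tdom (chartAt R4 x₀) (G.c i) := ⟨hy, hi⟩
  have hev : view2 (chartAt R4 x₀) θ =ᶠ[𝓝 y]
      pb2 (trans (chartAt R4 x₀) (G.c i)) (view2 (G.c i) θ) :=
    (eventually_tdom ht).mono fun z hz => view2_trans (atl_chartAt x₀) (G.c_mem i) θ hz
  rw [d2At_congr hev, d2At_pb2 (contDiffAt_trans (atl_chartAt x₀) (G.c_mem i) ht)
    (((smooth_view2 hθ (G.c_mem i)).contDiffAt
      ((G.c i).open_target.mem_nhds (trans_mem ht).1)).differentiableAt (by simp))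
    (isAlt_view2 hθ.1 _ _)]
  exact h i _ (mem_ball_zero_iff.2 (lt_of_le_of_lt hi1 (by norm_num))) _ _ _

/-- The dual basis. -/
def cvec (l : Fin 4) : Cov := EuclideanSpace.proj l

lemma cvec_bvec (l j : Fin 4) : cvec l (bvec j) = if l = j then 1 else 0 := by
  simp [cvec, bvec, Pi.single_apply]

lemma closed_of_pair {θ : X → Bil} (hθ : Smooth2 θ)
    (h : ∀ α, Smooth1 α → G.pair θ (extD1 α) = 0) : Closed2 θ := by
  refine closed_of_local G hθ fun i => ?_
  set θ' := fun z => kappaBump z • view2 (G.c i) θ z with hθ'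
  have hsm : ContDiff ℝ ∞ θ' := cd_kappa_view2 G hθ i
  have hcf : ∀ p q r, Continuous fun y => d2At θ' y (bvec p) (bvec q) (bvec r) := fun p q r => by
    simp only [d2At]
    have := hsm.continuous_fderiv (by simp)
    fun_prop
  have htest : ∀ (l : Fin 4) (φ : R4 → ℝ), ContDiff ℝ ∞ φ → HasCompactSupport φ →
      tsupport φ ⊆ Metric.ball 0 2 →
        ∫ y, φ y * top31 θ' (fun _ => cvec l) y = 0 := by
    intro l φ hφ hφc hφs
    have hts : tsupport (fun y => φ y • cvec l) ⊆ Metric.ball 0 2 :=
      (tsupport_smul_subset_left _ _).trans hφs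
    have hsub : tsupport (fun y => φ y • cvec l) ⊆ (G.c i).target :=
      hts.trans (Metric.ball_subset_closedBall.trans
        (closedBall_subset_target G i (show (2 : ℝ) < 4 by norm_num)))
    have hs : ContDiff ℝ ∞ fun y => φ y • cvec l := hφ.smul contDiff_const
    have hsc : HasCompactSupport fun y => φ y • cvec l := hφc.smul_right
    obtain ⟨h1, h2⟩ := push1_smooth (G.c_mem i) hs hsc hsub
    have hoff : ∀ x, x ∉ K G i 2 → push1 (G.c i) (fun y => φ y • cvec l) x = 0 := by
      intro x hx
      by_cases hxs : x ∈ (G.c i).source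
      · rw [push1_pos _ hxs, image_eq_zero_of_notMem_tsupport fun hm => hx
          ⟨_, Metric.ball_subset_closedBall (hts hm), (G.c i).left_inv hxs⟩]
        exact ContinuousLinearMap.zero_comp _
      · rw [push1, if_neg hxs]
    have hval : (fun z => kappaBump z • view1 (G.c i) (push1 (G.c i) fun y => φ y • cvec l) z) =
        fun z => φ z • cvec l := by
      funext z
      by_cases hz : z ∈ (G.c i).target
      · rw [h2 z hz]
        by_cases hzs : z ∈ tsupport fun y => φ y • cvec l
        · rw [kappa_one (Metric.ball_subset_closedBall (hts hzs)), one_smul]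
        · rw [image_eq_zero_of_notMem_tsupport hzs, smul_zero]
      · rw [kappa_zero fun hb => hz (closedBall_subset_target G i (by norm_num) hb), zero_smul,
          image_eq_zero_of_notMem_tsupport (f := fun y => φ y • cvec l) fun hm => hz (hsub hm)]
    have hp := h _ h1
    rw [pair_local G hθ h1 i hoff, hval, neg_eq_zero] at hp
    rw [← hp]
    congr 1
    funext y
    simp only [top31, smul_apply, smul_eq_mul, hθ']
    ring
  have hzero : ∀ l : Fin 4, ∀ y ∈ Metric.ball (0 : R4) 2, top31 θ' (fun _ => cvec l) y = 0 := by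
    intro l
    have hc : Continuous fun y => top31 θ' (fun _ => cvec l) y := by
      simp only [top31]
      exact ((((hcf 0 1 2).mul continuous_const).sub ((hcf 0 1 3).mul continuous_const)).add
        ((hcf 0 2 3).mul continuous_const)).sub ((hcf 1 2 3).mul continuous_const)
    have hae := Metric.isOpen_ball.ae_eq_zero_of_integral_contDiff_smul_eq_zero (μ := volume)
      (hc.locallyIntegrable.locallyIntegrableOn _)
      (fun g hg hgc hgs => by simpa [smul_eq_mul] using htest l g hg hgc hgs)
    exact Measure.eqOn_open_of_ae_eq (ae_restrict_of_ae hae |>.mp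
      (ae_restrict_mem measurableSet_ball |>.mono fun y hy h0 => h0 hy))
      Metric.isOpen_ball hc.continuousOn continuousOn_const
  intro y hy
  have hev : θ' =ᶠ[𝓝 y] view2 (G.c i) θ :=
    Filter.eventually_of_mem (Metric.isOpen_ball.mem_nhds hy) fun z hz => by
      rw [hθ']
      simp only [kappa_one (Metric.ball_subset_closedBall hz), one_smul]
  intro u v w
  rw [← congrFun (congrFun (congrFun (d2At_congr hev) u) v) w]
  refine d2At_eq_zero ((hsm.differentiable (by simp)) y)
    (Eventually.of_forall fun z => IsAlt.smul (isAlt_view2 hθ.1 _ _) _) ?_ ?_ ?_ ?_ u v w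
  · simpa [top31, cvec_bvec] using hzero 3 y hy
  · simpa [top31, cvec_bvec] using hzero 2 y hy
  · simpa [top31, cvec_bvec] using hzero 1 y hy
  · simpa [top31, cvec_bvec] using hzero 0 y hy

end Vale.Agent.P204.Full.Base
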