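import Vale.Agent.P204.Full.Base.Flat

/-!
# P204 Base: smooth fields, exterior derivative and push-forward from charts
-/

open scoped Manifold ContDiff Topology
open Set Filter

noncomputable section

namespace Vale.Agent.P204.Full.Base

universe u

/-! ### Pointwise algebra -/

lemma wedgeCov_apply (a b : Cov) (u v : R4) : wedgeCov a b u v = a u * b v - b u * a v := by
  simp [wedgeCov]

lemma isAlt_wedgeCov (a b : Cov) : IsAlt (wedgeCov a b) := fun u v => by
  simp only [wedgeCov_apply]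
  ring

lemma pullBil_wedgeCov (A : Endo) (a b : Cov) :
    pullBil A (wedgeCov a b) = wedgeCov (pullCov A a) (pullCov A b) := by
  ext u v
  simp [wedgeCov_apply]

lemma isAlt_zero : IsAlt 0 := fun u v => by simp

lemma isAlt_add {a b : Bil} (ha : IsAlt a) (hb : IsAlt b) : IsAlt (a + b) := fun u v => by
  simp [ha u v, hb u v]
  ring

lemma isAlt_smul {a : Bil} (ha : IsAlt a) (r : ℝ) : IsAlt (r • a) := fun u v => by
  simp [ha u v]

lemma isAlt_sub {a b : Bil} (ha : IsAlt a) (hb : IsAlt b) : IsAlt (a - b) := fun u v => by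
  simp [ha u v, hb u v]
  ring

lemma isAlt_inv11 (J : Endo) {b : Bil} (hb : IsAlt b) : IsAlt (inv11 J b) :=
  isAlt_smul (isAlt_add hb (isAlt_pullBil hb J)) _

lemma isAlt_anti20 (J : Endo) {b : Bil} (hb : IsAlt b) : IsAlt (anti20 J b) :=
  isAlt_smul (isAlt_sub hb (isAlt_pullBil hb J)) _

lemma pullBil_zero (A : Endo) : pullBil A 0 = 0 := by
  ext u v
  simp

lemma pullBil_add (A : Endo) (a b : Bil) : pullBil A (a + b) = pullBil A a + pullBil A b := rfl

lemma pullBil_sub (A : Endo) (a b : Bil) : pullBil A (a - b) = pullBil A a - pullBil A b := rfl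

lemma pullBil_smul (A : Endo) (r : ℝ) (b : Bil) : pullBil A (r • b) = r • pullBil A b := rfl

lemma pullBil_id (b : Bil) : pullBil (ContinuousLinearMap.id ℝ R4) b = b := rfl

lemma pullCov_id (a : Cov) : pullCov (ContinuousLinearMap.id ℝ R4) a = a := rfl

/-! ### Smoothness of the pointwise operations -/

/-- Flip of the arguments of a bilinear form. -/
def flipB : Bil →L[ℝ] Bil :=
  (ContinuousLinearMap.flipₗᵢ ℝ R4 R4 ℝ).toContinuousLinearEquiv.toContinuousLinearMap

lemma pullBil_flip (A : Endo) (b : Bil) :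
    pullBil A b = flipB ((flipB (b.comp A)).comp A) := rfl

section Generic

variable {E F : Type*} [NormedAddCommGroup E] [NormedSpace ℝ E] [NormedAddCommGroup F]
  [NormedSpace ℝ F] {f : R4 → E} {g : R4 → E} {s : Set R4} {y : R4}

lemma cdAt_clm {n : ℕ∞ω} (L : E →L[ℝ] F) (hf : ContDiffAt ℝ n f y) :
    ContDiffAt ℝ n (fun z => L (f z)) y := hf.continuousLinearMap_comp L

lemma cdOn_clm {n : ℕ∞ω} (L : E →L[ℝ] F) (hf : ContDiffOn ℝ n f s) :
    ContDiffOn ℝ n (fun z => L (f z)) s := hf.continuousLinearMap_comp L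

lemma cAt_clm (L : E →L[ℝ] F) (hf : ContinuousAt f y) : ContinuousAt (fun z => L (f z)) y :=
  L.continuous.continuousAt.comp hf

lemma cdOn_smul {r : R4 → ℝ} (hr : ContDiffOn ℝ ∞ r s) (hf : ContDiffOn ℝ ∞ f s) :
    ContDiffOn ℝ ∞ (fun z => r z • f z) s := hr.smul hf

lemma cdOn_half_add (hf : ContDiffOn ℝ ∞ f s) (hg : ContDiffOn ℝ ∞ g s) :
    ContDiffOn ℝ ∞ (fun z => (2⁻¹ : ℝ) • (f z + g z)) s := (hf.add hg).const_smul _

lemma cdOn_half_sub (hf : ContDiffOn ℝ ∞ f s) (hg : ContDiffOn ℝ ∞ g s) :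
    ContDiffOn ℝ ∞ (fun z => (2⁻¹ : ℝ) • (f z - g z)) s := (hf.sub hg).const_smul _

lemma cdAt_zero {n : ℕ∞ω} (h : f =ᶠ[𝓝 y] fun _ => 0) : ContDiffAt ℝ n f y :=
  contDiffAt_const.congr_of_eventuallyEq h

end Generic

lemma cdAt_pullBil {A : R4 → Endo} {b : R4 → Bil} {y : R4}
    (hA : ContDiffAt ℝ ∞ A y) (hb : ContDiffAt ℝ ∞ b y) :
    ContDiffAt ℝ ∞ (fun z => pullBil (A z) (b z)) y :=
  cdAt_clm (E := Bil) (F := Bil) flipB
    ((cdAt_clm (E := Bil) (F := Bil) flipB (hb.clm_comp hA)).clm_comp hA)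

lemma cdAt_pullCov {n : ℕ∞ω} {A : R4 → Endo} {b : R4 → Cov} {y : R4}
    (hA : ContDiffAt ℝ n A y) (hb : ContDiffAt ℝ n b y) :
    ContDiffAt ℝ n (fun z => pullCov (A z) (b z)) y :=
  hb.clm_comp hA

lemma cdOn_pullBil {A : R4 → Endo} {b : R4 → Bil} {s : Set R4}
    (hA : ContDiffOn ℝ ∞ A s) (hb : ContDiffOn ℝ ∞ b s) :
    ContDiffOn ℝ ∞ (fun z => pullBil (A z) (b z)) s :=
  cdOn_clm (E := Bil) (F := Bil) flipB
    ((cdOn_clm (E := Bil) (F := Bil) flipB (hb.clm_comp hA)).clm_comp hA)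

lemma cAt_pullBil {A : R4 → Endo} {b : R4 → Bil} {y : R4}
    (hA : ContinuousAt A y) (hb : ContinuousAt b y) :
    ContinuousAt (fun z => pullBil (A z) (b z)) y :=
  cAt_clm (E := Bil) (F := Bil) flipB
    ((cAt_clm (E := Bil) (F := Bil) flipB (hb.clm_comp hA)).clm_comp hA)

lemma cdOn_wedge {a b : R4 → Cov} {s : Set R4}
    (ha : ContDiffOn ℝ ∞ a s) (hb : ContDiffOn ℝ ∞ b s) :
    ContDiffOn ℝ ∞ (fun z => wedgeCov (a z) (b z)) s := by
  rw [contDiffOn_clm_apply]
  intro u
  rw [contDiffOn_clm_apply]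
  intro v
  simp only [wedgeCov_apply]
  exact ((ha.clm_apply contDiffOn_const).mul (hb.clm_apply contDiffOn_const)).sub
    ((hb.clm_apply contDiffOn_const).mul (ha.clm_apply contDiffOn_const))

variable {X : Type u} [TopologicalSpace X] [ChartedSpace R4 X] [IsManifold 𝓘(ℝ, R4) ∞ X]

/-! ### Fields in an arbitrary chart -/

lemma mem_tdom_chartAt {c : OpenPartialHomeomorph X R4} {y : R4} (hy : y ∈ c.target) :
    y ∈ tdom c (chartAt R4 (c.symm y)) :=
  ⟨hy, mem_chart_source R4 _⟩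

lemma eventually_tdom {c e : OpenPartialHomeomorph X R4} {y : R4} (hy : y ∈ tdom c e) :
    ∀ᶠ z in 𝓝 y, z ∈ tdom c e :=
  (isOpen_tdom c e).mem_nhds hy

lemma smooth_view1 {α : X → Cov} (hα : Smooth1 α) {c : OpenPartialHomeomorph X R4} (hc : Atl c) :
    ContDiffOn ℝ ∞ (view1 c α) c.target := fun y hy => by
  have he := atl_chartAt (c.symm y)
  have ht := mem_tdom_chartAt hy
  have hev := (eventually_tdom ht).mono fun z hz => view1_trans hc he α hz
  refine (ContDiffAt.congr_of_eventuallyEq (cdAt_pullCov ?_ ?_) hev).contDiffWithinAt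
  · exact (contDiffOn_dtrans hc he).contDiffAt ((isOpen_tdom _ _).mem_nhds ht)
  · exact ContDiffAt.comp (g := view1 (chartAt R4 (c.symm y)) α) y
      ((hα _).contDiffAt ((chartAt R4 (c.symm y)).open_target.mem_nhds (trans_mem ht).1))
      (contDiffAt_trans hc he ht)

lemma smooth_view2 {θ : X → Bil} (hθ : Smooth2 θ) {c : OpenPartialHomeomorph X R4} (hc : Atl c) :
    ContDiffOn ℝ ∞ (view2 c θ) c.target := fun y hy => by
  have he := atl_chartAt (c.symm y)
  have ht := mem_tdom_chartAt hy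
  have hev := (eventually_tdom ht).mono fun z hz => view2_trans hc he θ hz
  refine (ContDiffAt.congr_of_eventuallyEq (cdAt_pullBil ?_ ?_) hev).contDiffWithinAt
  · exact (contDiffOn_dtrans hc he).contDiffAt ((isOpen_tdom _ _).mem_nhds ht)
  · exact ContDiffAt.comp (g := view2 (chartAt R4 (c.symm y)) θ) y
      ((hθ.2 _).contDiffAt ((chartAt R4 (c.symm y)).open_target.mem_nhds (trans_mem ht).1))
      (contDiffAt_trans hc he ht)

lemma cont_view2 {θ : X → Bil} (hθ : Cont2 θ) {c : OpenPartialHomeomorph X R4} (hc : Atl c) :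
    ContinuousOn (view2 c θ) c.target := fun y hy => by
  have he := atl_chartAt (c.symm y)
  have ht := mem_tdom_chartAt hy
  have hev := (eventually_tdom ht).mono fun z hz => view2_trans hc he θ hz
  refine (ContinuousAt.congr ?_ (EventuallyEq.symm hev)).continuousWithinAt
  have h1 : ContinuousAt (dtrans c (chartAt R4 (c.symm y))) y :=
    ((contDiffOn_dtrans hc he).contDiffAt ((isOpen_tdom _ _).mem_nhds ht)).continuousAt
  have h2 : ContinuousAt (fun z => view2 (chartAt R4 (c.symm y)) θ (trans c (chartAt R4 (c.symm y)) z))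
      y :=
    ContinuousAt.comp (g := view2 (chartAt R4 (c.symm y)) θ)
      ((hθ.2 _).continuousAt ((chartAt R4 (c.symm y)).open_target.mem_nhds (trans_mem ht).1))
      (contDiffAt_trans hc he ht).continuousAt
  exact cAt_pullBil h1 h2

lemma smooth_cont {θ : X → Bil} (hθ : Smooth2 θ) : Cont2 θ :=
  ⟨hθ.1, fun x => (hθ.2 x).continuousOn⟩

lemma contDiffOn_fun {f : X → ℝ} (hf : ContMDiff 𝓘(ℝ, R4) 𝓘(ℝ, ℝ) ∞ f)
    {c : OpenPartialHomeomorph X R4} (hc : Atl c) :
    ContDiffOn ℝ ∞ (fun z => f (c.symm z)) c.target :=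
  contMDiffOn_iff_contDiffOn.1 (hf.comp_contMDiffOn (contMDiffOn_symm_of_mem_maximalAtlas hc))

/-! ### The exterior derivative -/

lemma d_view {α : X → Cov} (hα : Smooth1 α) {c : OpenPartialHomeomorph X R4} (hc : Atl c) {y : R4}
    (hy : y ∈ c.target) : view2 c (extD1 α) y = d1At (view1 c α) y := by
  have he := atl_chartAt (c.symm y)
  have ht := mem_tdom_chartAt hy
  have hev : view1 c α =ᶠ[𝓝 y]
      pb1 (trans c (chartAt R4 (c.symm y))) (view1 (chartAt R4 (c.symm y)) α) :=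
    (eventually_tdom ht).mono fun z hz => view1_trans hc he α hz
  rw [d1At_congr hev, d1At_pb1 (contDiffAt_trans hc he ht)
    (((hα _).contDiffAt ((chartAt R4 (c.symm y)).open_target.mem_nhds
      (trans_mem ht).1)).differentiableAt (by simp))]
  show pullBil (dsymm c y) (extD1 α (c.symm y)) = _
  rw [dsymm_trans hc he ht, pullBil_comp, trans, dsymm_chartAt, pullBil_id]
  rfl

lemma closed_view {θ : X → Bil} (hθ : Closed2 θ) {c : OpenPartialHomeomorph X R4} (hc : Atl c)
    {y : R4} (hy : y ∈ c.target) (u v w : R4) : d2At (view2 c θ) y u v w = 0 := by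
  have he := atl_chartAt (c.symm y)
  have ht := mem_tdom_chartAt hy
  have hev : view2 c θ =ᶠ[𝓝 y]
      pb2 (trans c (chartAt R4 (c.symm y))) (view2 (chartAt R4 (c.symm y)) θ) :=
    (eventually_tdom ht).mono fun z hz => view2_trans hc he θ hz
  rw [d2At_congr hev, d2At_pb2 (contDiffAt_trans hc he ht)
    (((hθ.1.2 _).contDiffAt ((chartAt R4 (c.symm y)).open_target.mem_nhds
      (trans_mem ht).1)).differentiableAt (by simp)) (isAlt_pullBil (hθ.1.1 _) _)]
  exact hθ.2 _ _ (trans_mem ht).1 _ _ _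

lemma smooth_extD1 {α : X → Cov} (hα : Smooth1 α) : Smooth2 (extD1 α) :=
  ⟨fun x => isAlt_d1At _ _, fun x₀ => by
    refine ContDiffOn.congr (d1At_contDiffOn ((smooth_view1 hα (atl_chartAt x₀)).fderiv_of_isOpen
      (chartAt R4 x₀).open_target (by simp))) fun y hy => d_view hα (atl_chartAt x₀) hy⟩

lemma exact_closed {α : X → Cov} (hα : Smooth1 α) : Closed2 (extD1 α) := by
  refine ⟨smooth_extD1 hα, fun x₀ y hy u v w => ?_⟩
  have hev : view2 (chartAt R4 x₀) (extD1 α) =ᶠ[𝓝 y] d1At (view1 (chartAt R4 x₀) α) :=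
    Filter.eventually_of_mem ((chartAt R4 x₀).open_target.mem_nhds hy)
      fun z hz => d_view hα (atl_chartAt x₀) hz
  rw [d2At_congr hev]
  exact d2At_d1At ((smooth_view1 hα (atl_chartAt x₀)).contDiffAt
    ((chartAt R4 x₀).open_target.mem_nhds hy)) u v w

lemma dfun_view {f : X → ℝ} (hf : ContMDiff 𝓘(ℝ, R4) 𝓘(ℝ, ℝ) ∞ f)
    {c : OpenPartialHomeomorph X R4} (hc : Atl c) {y : R4} (hy : y ∈ c.target) :
    view1 c (dfun f) y = fderiv ℝ (fun z => f (c.symm z)) y := by
  have he := atl_chartAt (c.symm y)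
  have ht := mem_tdom_chartAt hy
  have hev : (fun z => f (c.symm z)) =ᶠ[𝓝 y]
      (fun z => f ((chartAt R4 (c.symm y)).symm z)) ∘ trans c (chartAt R4 (c.symm y)) :=
    (eventually_tdom ht).mono fun z hz => by
      show f (c.symm z) = f _
      rw [symm_trans hz]
  rw [hev.fderiv_eq, fderiv_comp y
    (((contDiffOn_fun hf he).contDiffAt ((chartAt R4 (c.symm y)).open_target.mem_nhds
      (trans_mem ht).1)).differentiableAt (by simp)) (hasFDerivAt_trans hc he ht).differentiableAt]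
  show pullCov (dsymm c y) (dfun f (c.symm y)) = _
  rw [dsymm_trans hc he ht, pullCov_comp, trans, dsymm_chartAt, pullCov_id]
  rfl

lemma dfun_smooth {f : X → ℝ} (hf : ContMDiff 𝓘(ℝ, R4) 𝓘(ℝ, ℝ) ∞ f) : Smooth1 (dfun f) :=
  fun x₀ => ((contDiffOn_fun hf (atl_chartAt x₀)).fderiv_of_isOpen
    (chartAt R4 x₀).open_target (by simp)).congr fun y hy => dfun_view hf (atl_chartAt x₀) hy

omit [IsManifold 𝓘(ℝ, R4) ∞ X] in
lemma view1_smul (c : OpenPartialHomeomorph X R4) (f : X → ℝ) (α : X → Cov) (y : R4) :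
    view1 c (fun x => f x • α x) y = f (c.symm y) • view1 c α y := rfl

omit [IsManifold 𝓘(ℝ, R4) ∞ X] in
lemma view2_smul (c : OpenPartialHomeomorph X R4) (f : X → ℝ) (θ : X → Bil) (y : R4) :
    view2 c (fun x => f x • θ x) y = f (c.symm y) • view2 c θ y := rfl

omit [IsManifold 𝓘(ℝ, R4) ∞ X] in
lemma view2_add (c : OpenPartialHomeomorph X R4) (θ η : X → Bil) (y : R4) :
    view2 c (θ + η) y = view2 c θ y + view2 c η y := rfl

omit [IsManifold 𝓘(ℝ, R4) ∞ X] in
lemma view2_const_smul (c : OpenPartialHomeomorph X R4) (a : ℝ) (θ : X → Bil) (y : R4) :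
    view2 c (a • θ) y = a • view2 c θ y := rfl

lemma smul1 {f : X → ℝ} {α : X → Cov} (hf : ContMDiff 𝓘(ℝ, R4) 𝓘(ℝ, ℝ) ∞ f) (hα : Smooth1 α) :
    Smooth1 (fun x => f x • α x) :=
  fun x₀ => (contDiffOn_fun hf (atl_chartAt x₀)).smul (hα x₀)

lemma smul2 {f : X → ℝ} {θ : X → Bil} (hf : ContMDiff 𝓘(ℝ, R4) 𝓘(ℝ, ℝ) ∞ f) (hθ : Smooth2 θ) :
    Smooth2 (fun x => f x • θ x) :=
  ⟨fun x => isAlt_smul (hθ.1 x) _,
    fun x₀ => cdOn_smul (E := Bil) (contDiffOn_fun hf (atl_chartAt x₀)) (hθ.2 x₀)⟩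

lemma wedge_smooth {α β : X → Cov} (hα : Smooth1 α) (hβ : Smooth1 β) :
    Smooth2 (fun x => wedgeCov (α x) (β x)) :=
  ⟨fun x => isAlt_wedgeCov _ _, fun x₀ =>
    (cdOn_wedge (hα x₀) (hβ x₀)).congr fun y _ => pullBil_wedgeCov _ _ _⟩

lemma d_smul {f : X → ℝ} {α : X → Cov} (hf : ContMDiff 𝓘(ℝ, R4) 𝓘(ℝ, ℝ) ∞ f) (hα : Smooth1 α)
    (x : X) :
    extD1 (fun z => f z • α z) x = wedgeCov (dfun f x) (α x) + f x • extD1 α x := by
  have hmem := (chartAt R4 x).map_source (mem_chart_source R4 x)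
  have h1 : DifferentiableAt ℝ (fun z => f ((chartAt R4 x).symm z)) (chartAt R4 x x) :=
    ((contDiffOn_fun hf (atl_chartAt x)).contDiffAt
      ((chartAt R4 x).open_target.mem_nhds hmem)).differentiableAt (by simp)
  have h2 : DifferentiableAt ℝ (view1 (chartAt R4 x) α) (chartAt R4 x x) :=
    ((hα x).contDiffAt ((chartAt R4 x).open_target.mem_nhds hmem)).differentiableAt (by simp)
  ext u v
  show d1At (fun z => f ((chartAt R4 x).symm z) • view1 (chartAt R4 x) α z) (chartAt R4 x x) u v = _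
  rw [d1At_apply, fderiv_fun_smul h1 h2]
  simp [wedgeCov_apply, extD1, d1At_apply, dfun, view1_self, (chartAt R4 x).left_inv (mem_chart_source R4 x)]
  ring

/-! ### Almost complex structures in charts -/

/-- An endomorphism field read in a chart. -/
def viewJ (J : X → Endo) (c : OpenPartialHomeomorph X R4) (y : R4) : Endo :=
  ((dchart c (c.symm y)).comp (J (c.symm y))).comp (dsymm c y)

lemma dchart_comp_dsymm' {c e : OpenPartialHomeomorph X R4} (hc : Atl c) (he : Atl e) {z : R4}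
    (hz : z ∈ tdom e c) :
    (dchart c (e.symm z)).comp (dsymm e z) = dtrans e c z := by
  rw [dsymm_trans he hc hz, ← ContinuousLinearMap.comp_assoc, ← symm_trans hz,
    dchart_comp_dsymm hc (trans_mem hz).1]
  rfl

lemma dchart_trans {c e : OpenPartialHomeomorph X R4} (hc : Atl c) (he : Atl e) {x : X}
    (hxc : x ∈ c.source) (hxe : x ∈ e.source) :
    dchart c x = (dtrans e c (e x)).comp (dchart e x) := by
  have h := dchart_comp_dsymm' hc he (mem_tdom hxe hxc)
  rw [e.left_inv hxe] at h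
  rw [← h, ContinuousLinearMap.comp_assoc, dsymm_comp_dchart he hxe]
  rfl

lemma smooth_viewJ {J : X → Endo} (hJ : IsAlmostComplex (X := X) J)
    {c : OpenPartialHomeomorph X R4} (hc : Atl c) : ContDiffOn ℝ ∞ (viewJ J c) c.target :=
  fun y hy => by
  have he := atl_chartAt (c.symm y)
  have ht := mem_tdom_chartAt hy
  have hev : viewJ J c =ᶠ[𝓝 y] fun z =>
      ((dtrans (chartAt R4 (c.symm y)) c (trans c (chartAt R4 (c.symm y)) z)).comp
        (endInChart (X := X) J (c.symm y) (trans c (chartAt R4 (c.symm y)) z))).comp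
        (dtrans c (chartAt R4 (c.symm y)) z) :=
    (eventually_tdom ht).mono fun z hz => by
      show ((dchart c (c.symm z)).comp (J (c.symm z))).comp (dsymm c z) =
        ((dtrans _ c _).comp (((dchart _ ((chartAt R4 (c.symm y)).symm _)).comp
          (J ((chartAt R4 (c.symm y)).symm _))).comp (dsymm _ _))).comp (dtrans _ _ z)
      rw [symm_trans hz, dchart_trans hc he (c.map_target hz.1) hz.2, dsymm_trans hc he hz]
      rfl
  have hT := contDiffAt_trans hc he ht
  have h1 := ContDiffAt.comp (g := dtrans (chartAt R4 (c.symm y)) c) y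
    ((contDiffOn_dtrans he hc).contDiffAt ((isOpen_tdom _ _).mem_nhds (trans_mem ht))) hT
  have h2 := ContDiffAt.comp (g := endInChart (X := X) J (c.symm y)) y
    ((hJ.1 _).contDiffAt ((chartAt R4 (c.symm y)).open_target.mem_nhds (trans_mem ht).1)) hT
  exact (ContDiffAt.congr_of_eventuallyEq ((h1.clm_comp h2).clm_comp
    ((contDiffOn_dtrans hc he).contDiffAt ((isOpen_tdom _ _).mem_nhds ht))) hev).contDiffWithinAt

lemma dsymm_viewJ (J : X → Endo) {c : OpenPartialHomeomorph X R4} (hc : Atl c) {y : R4}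
    (hy : y ∈ c.target) :
    (dsymm c y).comp (viewJ J c y) = (J (c.symm y)).comp (dsymm c y) := by
  have h := dsymm_comp_dchart hc (c.map_target hy)
  rw [c.right_inv hy] at h
  rw [viewJ, ContinuousLinearMap.comp_assoc, ← ContinuousLinearMap.comp_assoc, h]
  rfl

lemma view1_compJ (J : X → Endo) (α : X → Cov) {c : OpenPartialHomeomorph X R4} (hc : Atl c)
    {y : R4} (hy : y ∈ c.target) :
    view1 c (fun x => (α x).comp (J x)) y = pullCov (viewJ J c y) (view1 c α y) := by
  show ((α (c.symm y)).comp (J (c.symm y))).comp (dsymm c y) =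
    ((α (c.symm y)).comp (dsymm c y)).comp (viewJ J c y)
  rw [ContinuousLinearMap.comp_assoc, ContinuousLinearMap.comp_assoc, dsymm_viewJ J hc hy]

lemma view2_pullJ (J : X → Endo) (θ : X → Bil) {c : OpenPartialHomeomorph X R4} (hc : Atl c)
    {y : R4} (hy : y ∈ c.target) :
    view2 c (fun x => pullBil (J x) (θ x)) y = pullBil (viewJ J c y) (view2 c θ y) := by
  show pullBil (dsymm c y) (pullBil (J (c.symm y)) (θ (c.symm y))) = _
  rw [view2, ← pullBil_comp, ← pullBil_comp, dsymm_viewJ J hc hy]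

variable (G : Geo X)

lemma compJ_smooth {α : X → Cov} (hα : Smooth1 α) : Smooth1 (fun x => (α x).comp (G.J x)) :=
  fun x₀ => ((hα x₀).clm_comp (smooth_viewJ G.J_acs (atl_chartAt x₀))).congr
    fun y hy => view1_compJ G.J α (atl_chartAt x₀) hy

lemma view2_p11 (θ : X → Bil) {c : OpenPartialHomeomorph X R4} (hc : Atl c) {y : R4}
    (hy : y ∈ c.target) : view2 c (G.p11 θ) y = inv11 (viewJ G.J c y) (view2 c θ y) := by
  rw [inv11, ← view2_pullJ G.J θ hc hy]
  rfl

lemma view2_p20 (θ : X → Bil) {c : OpenPartialHomeomorph X R4} (hc : Atl c) {y : R4}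
    (hy : y ∈ c.target) : view2 c (G.p20 θ) y = anti20 (viewJ G.J c y) (view2 c θ y) := by
  rw [anti20, ← view2_pullJ G.J θ hc hy]
  rfl

lemma J_sq (x : X) (v : R4) : G.J x (G.J x v) = -v := G.J_acs.2 x v

lemma p11_smooth {θ : X → Bil} (hθ : Smooth2 θ) : Smooth2 (G.p11 θ) ∧ G.Inv (G.p11 θ) := by
  refine ⟨⟨fun x => isAlt_inv11 _ (hθ.1 x), fun x₀ => ?_⟩, fun x u v => ?_⟩
  · exact (cdOn_half_add (E := Bil) (hθ.2 x₀)
      (cdOn_pullBil (smooth_viewJ G.J_acs (atl_chartAt x₀)) (hθ.2 x₀))).congr fun y hy => view2_p11 G θ (atl_chartAt x₀) hy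
  · show (2⁻¹ : ℝ) * (θ x (G.J x u) (G.J x v) + θ x (G.J x (G.J x u)) (G.J x (G.J x v))) =
      (2⁻¹ : ℝ) * (θ x u v + θ x (G.J x u) (G.J x v))
    rw [J_sq, J_sq, map_neg (θ x) u, neg_apply, map_neg, neg_neg]
    ring

lemma p20_smooth {θ : X → Bil} (hθ : Smooth2 θ) : Smooth2 (G.p20 θ) ∧ G.Anti (G.p20 θ) := by
  refine ⟨⟨fun x => isAlt_anti20 _ (hθ.1 x), fun x₀ => ?_⟩, fun x u v => ?_⟩
  · exact (cdOn_half_sub (E := Bil) (hθ.2 x₀)
      (cdOn_pullBil (smooth_viewJ G.J_acs (atl_chartAt x₀)) (hθ.2 x₀))).congr fun y hy => view2_p20 G θ (atl_chartAt x₀) hy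
  · show (2⁻¹ : ℝ) * (θ x (G.J x u) (G.J x v) - θ x (G.J x (G.J x u)) (G.J x (G.J x v))) =
      -((2⁻¹ : ℝ) * (θ x u v - θ x (G.J x u) (G.J x v)))
    rw [J_sq, J_sq, map_neg (θ x) u, neg_apply, map_neg, neg_neg]
    ring

/-! ### Push-forward from a chart -/

lemma push1_pos {c : OpenPartialHomeomorph X R4} (α : R4 → Cov) {x : X} (h : x ∈ c.source) :
    push1 c α x = pullCov (dchart c x) (α (c x)) := if_pos h

lemma push2_pos {c : OpenPartialHomeomorph X R4} (θ : R4 → Bil) {x : X} (h : x ∈ c.source) :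
    push2 c θ x = pullBil (dchart c x) (θ (c x)) := if_pos h

variable [T2Space X]

lemma push1_smooth {c : OpenPartialHomeomorph X R4} (hc : Atl c) {α : R4 → Cov}
    (hα : ContDiff ℝ ∞ α) (hcs : HasCompactSupport α) (hsub : tsupport α ⊆ c.target) :
    Smooth1 (push1 c α) ∧ ∀ y ∈ c.target, view1 c (push1 c α) y = α y := by
  have hK : IsClosed (c.symm '' tsupport α) :=
    (hcs.image_of_continuousOn (c.continuousOn_symm.mono hsub)).isClosed
  refine ⟨fun x₀ y hy => ?_, fun y hy => ?_⟩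
  · have he := atl_chartAt x₀
    by_cases hx : (chartAt R4 x₀).symm y ∈ c.source
    · have ht : y ∈ tdom (chartAt R4 x₀) c := ⟨hy, hx⟩
      have hev : view1 (chartAt R4 x₀) (push1 c α) =ᶠ[𝓝 y] fun z =>
          pullCov (dtrans (chartAt R4 x₀) c z) (α (trans (chartAt R4 x₀) c z)) :=
        (eventually_tdom ht).mono fun z hz => by
          rw [view1, push1_pos _ hz.2, ← pullCov_comp]
          exact congrArg (fun A => pullCov A _) (dchart_comp_dsymm' hc he hz)
      exact (ContDiffAt.congr_of_eventuallyEq (cdAt_pullCov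
        ((contDiffOn_dtrans he hc).contDiffAt ((isOpen_tdom _ _).mem_nhds ht))
        (ContDiffAt.comp (g := α) y hα.contDiffAt (contDiffAt_trans he hc ht)))
        hev).contDiffWithinAt
    · have hnot : (chartAt R4 x₀).symm y ∉ c.symm '' tsupport α := by
        rintro ⟨w, hw, hw'⟩
        exact hx (hw' ▸ c.map_target (hsub hw))
      have hev : view1 (chartAt R4 x₀) (push1 c α) =ᶠ[𝓝 y] fun _ => 0 :=
        Filter.eventually_of_mem (((chartAt R4 x₀).continuousOn_symm.continuousAt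
          ((chartAt R4 x₀).open_target.mem_nhds hy)).preimage_mem_nhds
            (hK.isOpen_compl.mem_nhds hnot)) fun z hz => by
          by_cases h : (chartAt R4 x₀).symm z ∈ c.source
          all_goals rw [view1]
          on_goal 1 => rw [push1_pos _ h, ← pullCov_comp]
          on_goal 2 => rw [push1, if_neg h]
          · have : α (c ((chartAt R4 x₀).symm z)) = 0 :=
              image_eq_zero_of_notMem_tsupport fun hmem => hz ⟨_, hmem, c.left_inv h⟩
            rw [this]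
            exact ContinuousLinearMap.zero_comp _
          · exact ContinuousLinearMap.zero_comp _
      exact (cdAt_zero hev).contDiffWithinAt
  · rw [view1, push1_pos _ (c.map_target hy), ← pullCov_comp, c.right_inv hy]
    exact congrArg (fun A => pullCov A (α y)) (dchart_comp_dsymm hc hy)

lemma push2_smooth {c : OpenPartialHomeomorph X R4} (hc : Atl c) {θ : R4 → Bil}
    (halt : ∀ y, IsAlt (θ y)) (hθ : ContDiff ℝ ∞ θ) (hcs : HasCompactSupport θ)
    (hsub : tsupport θ ⊆ c.target) :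
    Smooth2 (push2 c θ) ∧ ∀ y ∈ c.target, view2 c (push2 c θ) y = θ y := by
  have hK : IsClosed (c.symm '' tsupport θ) :=
    (hcs.image_of_continuousOn (c.continuousOn_symm.mono hsub)).isClosed
  refine ⟨⟨fun x => ?_, fun x₀ y hy => ?_⟩, fun y hy => ?_⟩
  · rw [push2]
    split_ifs
    exacts [isAlt_pullBil (halt _) _, isAlt_zero]
  · have he := atl_chartAt x₀
    by_cases hx : (chartAt R4 x₀).symm y ∈ c.source
    · have ht : y ∈ tdom (chartAt R4 x₀) c := ⟨hy, hx⟩
      have hev : view2 (chartAt R4 x₀) (push2 c θ) =ᶠ[𝓝 y] fun z =>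
          pullBil (dtrans (chartAt R4 x₀) c z) (θ (trans (chartAt R4 x₀) c z)) :=
        (eventually_tdom ht).mono fun z hz => by
          rw [view2, push2_pos _ hz.2, ← pullBil_comp]
          exact congrArg (fun A => pullBil A _) (dchart_comp_dsymm' hc he hz)
      exact (ContDiffAt.congr_of_eventuallyEq (cdAt_pullBil
        ((contDiffOn_dtrans he hc).contDiffAt ((isOpen_tdom _ _).mem_nhds ht))
        (ContDiffAt.comp (g := θ) y hθ.contDiffAt (contDiffAt_trans he hc ht)))
        hev).contDiffWithinAt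
    · have hnot : (chartAt R4 x₀).symm y ∉ c.symm '' tsupport θ := by
        rintro ⟨w, hw, hw'⟩
        exact hx (hw' ▸ c.map_target (hsub hw))
      have hev : view2 (chartAt R4 x₀) (push2 c θ) =ᶠ[𝓝 y] fun _ => 0 :=
        Filter.eventually_of_mem (((chartAt R4 x₀).continuousOn_symm.continuousAt
          ((chartAt R4 x₀).open_target.mem_nhds hy)).preimage_mem_nhds
            (hK.isOpen_compl.mem_nhds hnot)) fun z hz => by
          by_cases h : (chartAt R4 x₀).symm z ∈ c.source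
          all_goals rw [view2]
          on_goal 1 => rw [push2_pos _ h, ← pullBil_comp]
          on_goal 2 => rw [push2, if_neg h]
          · have : θ (c ((chartAt R4 x₀).symm z)) = 0 :=
              image_eq_zero_of_notMem_tsupport fun hmem => hz ⟨_, hmem, c.left_inv h⟩
            rw [this, pullBil_zero]
          · exact pullBil_zero _
      exact (cdAt_zero hev).contDiffWithinAt
  · rw [view2, push2_pos _ (c.map_target hy), ← pullBil_comp, c.right_inv hy]
    exact congrArg (fun A => pullBil A (θ y)) (dchart_comp_dsymm hc hy)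

end Vale.Agent.P204.Full.Base
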