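import Vale.Agent.P204.Full.Base.Chain

/-!
# P204 Base: calculus of forms on the model space
-/

open scoped Manifold ContDiff Topology
open Set Filter MeasureTheory

noncomputable section

namespace Vale.Agent.P204.Full.Base

/-- A covariant field pulled back by a map. -/
def pb1 (T : R4 → R4) (β : R4 → Cov) (z : R4) : Cov := pullCov (fderiv ℝ T z) (β (T z))

/-- A bilinear field pulled back by a map. -/
def pb2 (T : R4 → R4) (θ : R4 → Bil) (z : R4) : Bil := pullBil (fderiv ℝ T z) (θ (T z))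

lemma d1At_congr {α β : R4 → Cov} {y : R4} (h : α =ᶠ[𝓝 y] β) : d1At α y = d1At β y := by
  rw [d1At, d1At, h.fderiv_eq]

lemma d2At_congr {θ η : R4 → Bil} {y : R4} (h : θ =ᶠ[𝓝 y] η) : d2At θ y = d2At η y := by
  funext u v w
  simp only [d2At, h.fderiv_eq]

lemma d1At_apply (α : R4 → Cov) (y u v : R4) :
    d1At α y u v = fderiv ℝ α y u v - fderiv ℝ α y v u := rfl

lemma isAlt_d1At (α : R4 → Cov) (y : R4) : IsAlt (d1At α y) := fun u v => by
  simp [d1At_apply]

lemma d1At_contDiffOn {n : ℕ∞ω} {α : R4 → Cov} {s : Set R4}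
    (h : ContDiffOn ℝ n (fderiv ℝ α) s) : ContDiffOn ℝ n (d1At α) s := by
  rw [contDiffOn_clm_apply]
  intro u
  rw [contDiffOn_clm_apply]
  intro v
  simp only [d1At_apply]
  exact ((h.clm_apply contDiffOn_const).clm_apply contDiffOn_const).sub
    ((h.clm_apply contDiffOn_const).clm_apply contDiffOn_const)

lemma two_le_top : (2 : ℕ∞ω) ≤ ∞ := WithTop.coe_le_coe.2 le_top

lemma fderiv_apply2 {θ : R4 → Bil} {y : R4} (hd : DifferentiableAt ℝ θ y) (a p q : R4) :
    fderiv ℝ (fun z => θ z p q) y a = fderiv ℝ θ y a p q := by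
  rw [fderiv_clm_apply (hd.clm_apply (differentiableAt_const p)) (differentiableAt_const q),
    fderiv_clm_apply hd (differentiableAt_const p)]
  simp

/-- Second derivatives commute. -/
lemma symm2 {E : Type*} [NormedAddCommGroup E] [NormedSpace ℝ E] {f : R4 → E} {y : R4}
    (hf : ContDiffAt ℝ ∞ f y) (u v : R4) :
    fderiv ℝ (fderiv ℝ f) y u v = fderiv ℝ (fderiv ℝ f) y v u :=
  (hf.isSymmSndFDerivAt (by
    rw [minSmoothness_of_isRCLikeNormedField]; exact two_le_top)).eq u v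

lemma diffAt_fderiv {E : Type*} [NormedAddCommGroup E] [NormedSpace ℝ E] {f : R4 → E} {y : R4}
    (hf : ContDiffAt ℝ ∞ f y) : DifferentiableAt ℝ (fderiv ℝ f) y :=
  (hf.fderiv_right (m := 1) two_le_top).differentiableAt one_ne_zero

/-- The derivative of a pulled-back one-form. -/
lemma fderiv_pb1 {T : R4 → R4} {β : R4 → Cov} {y : R4} (hT : ContDiffAt ℝ ∞ T y)
    (hβ : DifferentiableAt ℝ β (T y)) (u v : R4) :
    fderiv ℝ (pb1 T β) y u v = fderiv ℝ β (T y) (fderiv ℝ T y u) (fderiv ℝ T y v) +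
      β (T y) (fderiv ℝ (fderiv ℝ T) y u v) := by
  have h1 : DifferentiableAt ℝ (fun z => β (T z)) y :=
    DifferentiableAt.comp (g := β) y hβ (hT.differentiableAt (by simp))
  have h2 := diffAt_fderiv hT
  have e : pb1 T β = fun z => (β (T z)).comp (fderiv ℝ T z) := rfl
  rw [e, fderiv_clm_comp h1 h2]
  have h3 : fderiv ℝ (fun z => β (T z)) y = (fderiv ℝ β (T y)).comp (fderiv ℝ T y) :=
    fderiv_comp y hβ (hT.differentiableAt (by simp))
  simp [h3, add_comm]

/-- Pull-back commutes with `d` on one-forms. -/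
lemma d1At_pb1 {T : R4 → R4} {β : R4 → Cov} {y : R4} (hT : ContDiffAt ℝ ∞ T y)
    (hβ : DifferentiableAt ℝ β (T y)) :
    d1At (pb1 T β) y = pullBil (fderiv ℝ T y) (d1At β (T y)) := by
  ext u v
  simp [d1At_apply, fderiv_pb1 hT hβ, symm2 hT u v]

lemma diffAt_clm {E F : Type*} [NormedAddCommGroup E] [NormedSpace ℝ E] [NormedAddCommGroup F]
    [NormedSpace ℝ F] (L : E →L[ℝ] F) {f : R4 → E} {y : R4} (hf : DifferentiableAt ℝ f y) :
    DifferentiableAt ℝ (fun z => L (f z)) y :=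
  L.differentiableAt.comp y hf

lemma diffAt_pb2 {T : R4 → R4} {θ : R4 → Bil} {y : R4} (hT : ContDiffAt ℝ ∞ T y)
    (hθ : DifferentiableAt ℝ θ (T y)) : DifferentiableAt ℝ (pb2 T θ) y := by
  have h1 : DifferentiableAt ℝ (fun z => θ (T z)) y :=
    DifferentiableAt.comp (g := θ) y hθ (hT.differentiableAt (by simp))
  have hD := diffAt_fderiv hT
  let F : Bil →L[ℝ] Bil :=
    (ContinuousLinearMap.flipₗᵢ ℝ R4 R4 ℝ).toContinuousLinearEquiv.toContinuousLinearMap
  have h3 := diffAt_clm (E := Bil) (F := Bil) F (h1.clm_comp hD)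
  exact diffAt_clm (E := Bil) (F := Bil) F (h3.clm_comp hD)

/-- The derivative of a pulled-back two-form. -/
lemma fderiv_pb2 {T : R4 → R4} {θ : R4 → Bil} {y : R4} (hT : ContDiffAt ℝ ∞ T y)
    (hθ : DifferentiableAt ℝ θ (T y)) (u v w : R4) :
    fderiv ℝ (pb2 T θ) y u v w =
      fderiv ℝ θ (T y) (fderiv ℝ T y u) (fderiv ℝ T y v) (fderiv ℝ T y w) +
        θ (T y) (fderiv ℝ (fderiv ℝ T) y u v) (fderiv ℝ T y w) +
        θ (T y) (fderiv ℝ T y v) (fderiv ℝ (fderiv ℝ T) y u w) := by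
  have h1 : DifferentiableAt ℝ (fun z => θ (T z)) y :=
    DifferentiableAt.comp (g := θ) y hθ (hT.differentiableAt (by simp))
  have hD := diffAt_fderiv hT
  have hev : ∀ a, DifferentiableAt ℝ (fun z => fderiv ℝ T z a) y :=
    fun a => hD.clm_apply (differentiableAt_const a)
  have hda : ∀ a b, fderiv ℝ (fun z => fderiv ℝ T z a) y b = fderiv ℝ (fderiv ℝ T) y b a :=
    fun a b => by rw [fderiv_clm_apply hD (differentiableAt_const a)]; simp
  have h12 := h1.clm_apply (hev v)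
  have hfun := diffAt_pb2 hT hθ
  have hl : fderiv ℝ (pb2 T θ) y u v w = fderiv ℝ (fun z => pb2 T θ z v w) y u :=
    (fderiv_apply2 hfun u v w).symm
  have h3 : fderiv ℝ (fun z => θ (T z)) y = (fderiv ℝ θ (T y)).comp (fderiv ℝ T y) :=
    fderiv_comp (g := θ) y hθ (hT.differentiableAt (by simp))
  rw [hl]
  show fderiv ℝ (fun z => θ (T z) (fderiv ℝ T z v) (fderiv ℝ T z w)) y u = _
  rw [fderiv_clm_apply h12 (hev w), fderiv_clm_apply h1 (hev v)]
  simp [h3, hda]
  ring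

/-- Pull-back commutes with `d` on two-forms. -/
lemma d2At_pb2 {T : R4 → R4} {θ : R4 → Bil} {y : R4} (hT : ContDiffAt ℝ ∞ T y)
    (hθ : DifferentiableAt ℝ θ (T y)) (halt : IsAlt (θ (T y))) (u v w : R4) :
    d2At (pb2 T θ) y u v w =
      d2At θ (T y) (fderiv ℝ T y u) (fderiv ℝ T y v) (fderiv ℝ T y w) := by
  simp only [d2At, fderiv_pb2 hT hθ]
  rw [symm2 hT u v, symm2 hT u w, symm2 hT v w,
    halt (fderiv ℝ T y u) (fderiv ℝ (fderiv ℝ T) y w v),
    halt (fderiv ℝ T y v) (fderiv ℝ (fderiv ℝ T) y w u)]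
  have := halt (fderiv ℝ T y u) (fderiv ℝ (fderiv ℝ T) y v w)
  rw [symm2 hT v w] at this
  linarith [halt (fderiv ℝ (fderiv ℝ T) y w v) (fderiv ℝ T y u)]

/-- `d ∘ d = 0`. -/
lemma d2At_d1At {α : R4 → Cov} {y : R4} (hα : ContDiffAt ℝ ∞ α y) (u v w : R4) :
    d2At (d1At α) y u v w = 0 := by
  have h : ∀ a b c, fderiv ℝ (d1At α) y a b c =
      fderiv ℝ (fderiv ℝ α) y a b c - fderiv ℝ (fderiv ℝ α) y a c b := by
    intro a b c
    have hD : ContDiffAt ℝ 1 (fderiv ℝ α) y := hα.fderiv_right two_le_top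
    obtain ⟨U, hU, hon⟩ := hD.contDiffOn le_rfl (by simp)
    have hd1 : DifferentiableAt ℝ (d1At α) y :=
      ((d1At_contDiffOn hon).contDiffAt hU).differentiableAt one_ne_zero
    have hD' := diffAt_fderiv hα
    have hp : ∀ p q, DifferentiableAt ℝ (fun z => fderiv ℝ α z p q) y := fun p q =>
      (hD'.clm_apply (differentiableAt_const p)).clm_apply (differentiableAt_const q)
    rw [← fderiv_apply2 hd1]
    simp only [d1At_apply]
    rw [fderiv_fun_sub (hp b c) (hp c b), ← fderiv_apply2 hD', ← fderiv_apply2 hD']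
    rfl
  simp only [d2At, h, symm2 hα u v, symm2 hα u w, symm2 hα v w]
  ring

/-! ### Bases and determinants -/

lemma vec_expand (u : R4) : u = ∑ i, u i • bvec i := by
  ext j
  simp [bvec, Finset.sum_apply, Pi.single_apply]

lemma bil_expand (b : Bil) (u v : R4) :
    b u v = ∑ i, ∑ j, u i * (v j * b (bvec i) (bvec j)) := by
  conv_lhs => rw [vec_expand u, vec_expand v]
  simp only [map_sum, map_smul, sum_apply, smul_apply, smul_eq_mul, Finset.mul_sum]
  rw [Finset.sum_comm]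
  exact Finset.sum_congr rfl fun i _ => Finset.sum_congr rfl fun j _ => by ring

lemma isAlt_self {b : Bil} (h : IsAlt b) (u : R4) : b u u = 0 := by
  have := h u u
  linarith

lemma alt_expand {b : Bil} (h : IsAlt b) (u v : R4) :
    b u v = (u 0 * v 1 - u 1 * v 0) * b (bvec 0) (bvec 1) +
      (u 0 * v 2 - u 2 * v 0) * b (bvec 0) (bvec 2) + (u 0 * v 3 - u 3 * v 0) * b (bvec 0) (bvec 3) +
      (u 1 * v 2 - u 2 * v 1) * b (bvec 1) (bvec 2) + (u 1 * v 3 - u 3 * v 1) * b (bvec 1) (bvec 3) +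
      (u 2 * v 3 - u 3 * v 2) * b (bvec 2) (bvec 3) := by
  rw [bil_expand]
  simp only [Fin.sum_univ_four, isAlt_self h, mul_zero]
  rw [h (bvec 1) (bvec 0), h (bvec 2) (bvec 0), h (bvec 3) (bvec 0), h (bvec 2) (bvec 1),
    h (bvec 3) (bvec 1), h (bvec 3) (bvec 2)]
  ring

/-- The matrix of an endomorphism. -/
def mat (A : Endo) : Matrix (Fin 4) (Fin 4) ℝ := Matrix.of fun i j => A (bvec j) i

lemma det_mat (A : Endo) : (mat A).det = A.det := by
  rw [ContinuousLinearMap.det, ← LinearMap.det_toMatrix (EuclideanSpace.basisFun (Fin 4) ℝ).toBasis]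
  congr 1

lemma det4 (M : Matrix (Fin 4) (Fin 4) ℝ) : M.det =
    M 0 0 * (M 1 1 * (M 2 2 * M 3 3 - M 2 3 * M 3 2) - M 1 2 * (M 2 1 * M 3 3 - M 2 3 * M 3 1) +
      M 1 3 * (M 2 1 * M 3 2 - M 2 2 * M 3 1)) -
    M 0 1 * (M 1 0 * (M 2 2 * M 3 3 - M 2 3 * M 3 2) - M 1 2 * (M 2 0 * M 3 3 - M 2 3 * M 3 0) +
      M 1 3 * (M 2 0 * M 3 2 - M 2 2 * M 3 0)) +
    M 0 2 * (M 1 0 * (M 2 1 * M 3 3 - M 2 3 * M 3 1) - M 1 1 * (M 2 0 * M 3 3 - M 2 3 * M 3 0) +
      M 1 3 * (M 2 0 * M 3 1 - M 2 1 * M 3 0)) -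
    M 0 3 * (M 1 0 * (M 2 1 * M 3 2 - M 2 2 * M 3 1) - M 1 1 * (M 2 0 * M 3 2 - M 2 2 * M 3 0) +
      M 1 2 * (M 2 0 * M 3 1 - M 2 1 * M 3 0)) := by
  rw [Matrix.det_succ_row_zero]
  simp [Fin.sum_univ_four, Matrix.det_fin_three, Fin.succAbove, Matrix.submatrix_apply]
  ring

/-- The wedge scales by the determinant. -/
lemma top22_pullBil (A : Endo) {a b : Bil} (ha : IsAlt a) (hb : IsAlt b) :
    top22 (pullBil A a) (pullBil A b) = A.det * top22 a b := by
  rw [← det_mat, det4]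
  simp only [top22, pullBil_apply, mat, Matrix.of_apply]
  rw [alt_expand ha (A (bvec 0)) (A (bvec 1)), alt_expand ha (A (bvec 0)) (A (bvec 2)),
    alt_expand ha (A (bvec 0)) (A (bvec 3)), alt_expand ha (A (bvec 1)) (A (bvec 2)),
    alt_expand ha (A (bvec 1)) (A (bvec 3)), alt_expand ha (A (bvec 2)) (A (bvec 3)),
    alt_expand hb (A (bvec 0)) (A (bvec 1)), alt_expand hb (A (bvec 0)) (A (bvec 2)),
    alt_expand hb (A (bvec 0)) (A (bvec 3)), alt_expand hb (A (bvec 1)) (A (bvec 2)),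
    alt_expand hb (A (bvec 1)) (A (bvec 3)), alt_expand hb (A (bvec 2)) (A (bvec 3))]
  ring

lemma d2At_alt {θ : R4 → Bil} {y : R4} (hd : DifferentiableAt ℝ θ y)
    (halt : ∀ᶠ z in 𝓝 y, IsAlt (θ z))
    (a b c : R4) : fderiv ℝ θ y a b c = -(fderiv ℝ θ y a c b) := by
  have h : (fun z => θ z b c) =ᶠ[𝓝 y] fun z => -(θ z c b) := halt.mono fun z hz => hz b c
  rw [← fderiv_apply2 hd, ← fderiv_apply2 hd, h.fderiv_eq, fderiv_fun_neg]
  rfl

lemma d2At_sum {θ : R4 → Bil} {y : R4} (u v w : R4) :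
    d2At θ y u v w = ∑ i, ∑ j, ∑ k, u i * (v j * (w k * d2At θ y (bvec i) (bvec j) (bvec k))) := by
  conv_lhs => rw [vec_expand u, vec_expand v, vec_expand w]
  simp only [d2At, Fin.sum_univ_four, map_add, map_smul, add_apply, smul_apply, smul_eq_mul]
  ring

/-- A two-form is closed at a point when four components of its differential vanish. -/
lemma d2At_eq_zero {θ : R4 → Bil} {y : R4} (hd : DifferentiableAt ℝ θ y)
    (halt : ∀ᶠ z in 𝓝 y, IsAlt (θ z))
    (h012 : d2At θ y (bvec 0) (bvec 1) (bvec 2) = 0)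
    (h013 : d2At θ y (bvec 0) (bvec 1) (bvec 3) = 0)
    (h023 : d2At θ y (bvec 0) (bvec 2) (bvec 3) = 0)
    (h123 : d2At θ y (bvec 1) (bvec 2) (bvec 3) = 0) (u v w : R4) : d2At θ y u v w = 0 := by
  have key : ∀ a b c, d2At θ y b a c = -d2At θ y a b c ∧ d2At θ y a c b = -d2At θ y a b c := by
    intro a b c
    simp only [d2At]
    constructor <;> linarith [d2At_alt hd halt c a b, d2At_alt hd halt a b c,
      d2At_alt hd halt b a c, d2At_alt hd halt c b a]
  have k3 : ∀ {a b c}, d2At θ y a b c = 0 → d2At θ y b a c = 0 ∧ d2At θ y a c b = 0 ∧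
      d2At θ y c b a = 0 ∧ d2At θ y b c a = 0 ∧ d2At θ y c a b = 0 := by
    intro a b c h
    obtain ⟨p1, p2⟩ := key a b c
    obtain ⟨p3, p4⟩ := key b a c
    obtain ⟨p5, p6⟩ := key a c b
    obtain ⟨p7, p8⟩ := key c a b
    refine ⟨?_, ?_, ?_, ?_, ?_⟩ <;> linarith
  have kd : ∀ a b, d2At θ y a a b = 0 ∧ d2At θ y a b a = 0 ∧ d2At θ y b a a = 0 := by
    intro a b
    obtain ⟨p1, p2⟩ := key a a b
    obtain ⟨p3, p4⟩ := key a b a
    obtain ⟨p5, p6⟩ := key b a a
    refine ⟨?_, ?_, ?_⟩ <;> linarith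
  rw [d2At_sum]
  simp only [Fin.sum_univ_four, h012, h013, h023, h123, k3 h012, k3 h013, k3 h023, k3 h123, kd,
    mul_zero, add_zero]

/-! ### Integration by parts -/

lemma integral_mul_deriv {f g : R4 → ℝ} (hf : ContDiff ℝ 1 f) (hg : ContDiff ℝ 1 g)
    (hc : HasCompactSupport g) (v : R4) :
    ∫ x, f x * fderiv ℝ g x v = - ∫ x, fderiv ℝ f x v * g x := by
  have hf' : Continuous fun x => fderiv ℝ f x v :=
    (hf.continuous_fderiv (by simp)).clm_apply continuous_const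
  have hg' : Continuous fun x => fderiv ℝ g x v :=
    (hg.continuous_fderiv (by simp)).clm_apply continuous_const
  refine integral_mul_fderiv_eq_neg_fderiv_mul_of_integrable ?_ ?_ ?_
    (fun x _ => (hf.differentiable (by simp)) x) (fun x _ => (hg.differentiable (by simp)) x)
  · exact (hf'.mul hg.continuous).integrable_of_hasCompactSupport hc.mul_left
  · exact (hf.continuous.mul hg').integrable_of_hasCompactSupport
      ((hc.fderiv_apply (𝕜 := ℝ) v).mul_left)
  · exact (hf.continuous.mul hg.continuous).integrable_of_hasCompactSupport hc.mul_left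

/-- `dθ ∧ β` on the standard basis. -/
def top31 (θ : R4 → Bil) (β : R4 → Cov) (y : R4) : ℝ :=
  d2At θ y (bvec 0) (bvec 1) (bvec 2) * β y (bvec 3) -
    d2At θ y (bvec 0) (bvec 1) (bvec 3) * β y (bvec 2) +
    d2At θ y (bvec 0) (bvec 2) (bvec 3) * β y (bvec 1) -
    d2At θ y (bvec 1) (bvec 2) (bvec 3) * β y (bvec 0)

/-- Stokes on the model space. -/
lemma stokes {θ : R4 → Bil} {β : R4 → Cov} (hθ : ContDiff ℝ ∞ θ) (hβ : ContDiff ℝ ∞ β)
    (hc : HasCompactSupport β) :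
    ∫ y, top22 (θ y) (d1At β y) = - ∫ y, top31 θ β y := by
  let a : Fin 4 → Fin 4 → R4 → ℝ := fun i j y => θ y (bvec i) (bvec j)
  let b : Fin 4 → R4 → ℝ := fun i y => β y (bvec i)
  have ha : ∀ i j, ContDiff ℝ 1 (a i j) := fun i j =>
    ((hθ.clm_apply contDiff_const).clm_apply contDiff_const).of_le (by simp)
  have hb : ∀ i, ContDiff ℝ 1 (b i) := fun i =>
    (hβ.clm_apply contDiff_const).of_le (by simp)
  have hbc : ∀ i, HasCompactSupport (b i) := fun i => by
    refine hc.mono' ?_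
    intro y hy
    by_contra h
    exact hy (by simp [b, image_eq_zero_of_notMem_tsupport h])
  have da : ∀ i j k y, fderiv ℝ θ y (bvec k) (bvec i) (bvec j) = fderiv ℝ (a i j) y (bvec k) :=
    fun i j k y => (fderiv_apply2 (hθ.differentiable (by simp) y) _ _ _).symm
  have db : ∀ i k y, fderiv ℝ β y (bvec k) (bvec i) = fderiv ℝ (b i) y (bvec k) := by
    intro i k y
    show _ = fderiv ℝ (fun z => β z (bvec i)) y (bvec k)
    rw [fderiv_clm_apply (hβ.differentiable (by simp) y) (differentiableAt_const _)]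
    simp
  let D : Fin 4 → Fin 4 → Fin 4 → Fin 4 → R4 → ℝ := fun i j k l y =>
    a i j y * fderiv ℝ (b l) y (bvec k) + fderiv ℝ (a i j) y (bvec k) * b l y
  let Z : (R4 → ℝ) → Prop := fun f => Integrable f ∧ ∫ y, f y = 0
  have Zadd : ∀ {f g}, Z f → Z g → Z fun y => f y + g y := fun hf hg =>
    ⟨hf.1.add hg.1, by rw [integral_add hf.1 hg.1, hf.2, hg.2, add_zero]⟩
  have Zsub : ∀ {f g}, Z f → Z g → Z fun y => f y - g y := fun hf hg =>
    ⟨hf.1.sub hg.1, by rw [integral_sub hf.1 hg.1, hf.2, hg.2, sub_zero]⟩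
  have hI : ∀ i j k l, Integrable (D i j k l) ∧ ∫ y, D i j k l y = 0 := by
    intro i j k l
    have i1 : Integrable fun y => a i j y * fderiv ℝ (b l) y (bvec k) :=
      ((ha i j).continuous.mul
        (((hb l).continuous_fderiv (by simp)).clm_apply continuous_const)).integrable_of_hasCompactSupport
        ((hbc l).fderiv_apply (𝕜 := ℝ) _).mul_left
    have i2 : Integrable fun y => fderiv ℝ (a i j) y (bvec k) * b l y :=
      ((((ha i j).continuous_fderiv (by simp)).clm_apply continuous_const).mul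
        (hb l).continuous).integrable_of_hasCompactSupport (hbc l).mul_left
    refine ⟨i1.add i2, ?_⟩
    rw [integral_add i1 i2, integral_mul_deriv (ha i j) (hb l) (hbc l), neg_add_cancel]
  have hsum : ∀ y, top22 (θ y) (d1At β y) + top31 θ β y =
      D 0 1 2 3 y - D 0 1 3 2 y - D 0 2 1 3 y + D 0 2 3 1 y + D 0 3 1 2 y - D 0 3 2 1 y +
      D 1 2 0 3 y - D 1 2 3 0 y - D 1 3 0 2 y + D 1 3 2 0 y + D 2 3 0 1 y - D 2 3 1 0 y := by
    intro y
    simp only [top22, top31, d1At_apply, d2At, D, da, db, a, b]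
    ring
  have i31 : Integrable fun y => top31 θ β y := by
    have hd : ∀ p q r, Continuous fun y => d2At θ y (bvec p) (bvec q) (bvec r) := fun p q r => by
      simp only [d2At]
      have := hθ.continuous_fderiv (by simp)
      fun_prop
    have hone : ∀ p q r l, Integrable fun y => d2At θ y (bvec p) (bvec q) (bvec r) * β y (bvec l) :=
      fun p q r l => ((hd p q r).mul (hb l).continuous).integrable_of_hasCompactSupport
        (hbc l).mul_left
    exact (((hone 0 1 2 3).sub (hone 0 1 3 2)).add (hone 0 2 3 1)).sub (hone 1 2 3 0)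
  have htot : Z fun y => top22 (θ y) (d1At β y) + top31 θ β y := by
    simp only [hsum]
    exact Zsub (Zadd (Zadd (Zsub (Zsub (Zadd (Zsub (Zadd (Zadd (Zsub (Zsub (hI 0 1 2 3) (hI 0 1 3 2))
      (hI 0 2 1 3)) (hI 0 2 3 1)) (hI 0 3 1 2)) (hI 0 3 2 1)) (hI 1 2 0 3)) (hI 1 2 3 0))
      (hI 1 3 0 2)) (hI 1 3 2 0)) (hI 2 3 0 1)) (hI 2 3 1 0)
  have i22 : Integrable fun y => top22 (θ y) (d1At β y) :=
    (htot.1.sub i31).congr (Eventually.of_forall fun y => by simp)
  rw [eq_neg_iff_add_eq_zero, ← integral_add i22 i31]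
  exact htot.2

end Vale.Agent.P204.Full.Base
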