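import Vale.Agent.P204.Full.Base.Norms

/-!
# P204 Base: the shared facts of calculus and integration
-/

open scoped Manifold ContDiff
open MeasureTheory Set

noncomputable section

namespace Vale.Agent.P204.Full

universe u

/-- Every field of `BaseFacts` holds for every choice of geometric data. -/
theorem base_facts {X : Type u} [TopologicalSpace X] [T2Space X] [CompactSpace X]
    [ChartedSpace R4 X] [IsManifold 𝓘(ℝ, R4) ∞ X] [MeasurableSpace X] [BorelSpace X] (G : Geo X) :
    BaseFacts G where
  smooth_view1 := fun _ hα _ hc => Base.smooth_view1 hα hc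
  smooth_view2 := fun _ hθ _ hc => Base.smooth_view2 hθ hc
  cont_view2 := fun _ hθ _ hc => Base.cont_view2 hθ hc
  smooth_cont := fun _ hθ => Base.smooth_cont hθ
  d_view := fun _ hα _ hc _ hy => Base.d_view hα hc hy
  closed_view := fun _ hθ _ hc _ hy => Base.closed_view hθ hc hy
  exact_closed := fun _ hα => Base.exact_closed hα
  dfun_smooth := fun _ hf => Base.dfun_smooth hf
  smul1 := fun _ _ hf hα => Base.smul1 hf hα
  smul2 := fun _ _ hf hθ => Base.smul2 hf hθ
  wedge_smooth := fun _ _ hα hβ => Base.wedge_smooth hα hβ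
  compJ_smooth := fun _ hα => Base.compJ_smooth G hα
  d_smul := fun _ _ hf hα x => Base.d_smul hf hα x
  push1_smooth := fun _ hc _ h1 h2 h3 => Base.push1_smooth hc h1 h2 h3
  push2_smooth := fun _ hc _ h0 h1 h2 h3 => Base.push2_smooth hc h0 h1 h2 h3
  p11_smooth := fun _ hθ => Base.p11_smooth G hθ
  p20_smooth := fun _ hθ => Base.p20_smooth G hθ
  rho_nonneg := Base.rho_nonneg G
  rho_sum := Base.rho_sum G
  rho_smooth := Base.rho_smooth G
  rho_supp := Base.rho_supp G
  vol_finite := Base.vol_finite G
  vol_chart := fun i _ hf hsupp => (Base.vol_chart G i hf hsupp).2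
  W_view := fun _ hc a b ha hb _ hy => Base.W_view G hc a b ha hb hy
  W_cont := fun _ _ hθ hη => Base.W_cont G hθ hη
  W_smooth := fun _ _ hθ hη => Base.W_smooth G hθ hη
  pair_integrable := fun _ _ hθ hη => Base.pair_integrable G hθ hη
  pair_closed_exact := fun _ _ hθ hα => Base.pair_closed_exact G hθ hα
  closed_of_pair := fun _ hθ h => Base.closed_of_pair G hθ h
  nrm2_cont := fun _ hθ => Base.nrm2_cont G hθ
  nrm2_view := Base.nrm2_view G
  l2_hn := Base.l2_hn G
  hn_add := Base.hn_add G
  hn_smul := Base.hn_smul G
  p20_hsum := Base.p20_hsum G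
  sobolev := Base.sobolev G
  sobolev_nrm := Base.sobolev_nrm G
  near_symm := Base.near_symm G
  near_self := Base.near_self G
  near_closed := Base.near_closed G
  near_trans := Base.near_trans G
  near_chart := Base.near_chart G
  vol_near := Base.vol_near G

/-- The foundation module's second theorem. -/
theorem baseStatement : BaseStatement.{u} := fun _ _ _ _ _ _ _ _ G => base_facts G

end Vale.Agent.P204.Full
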