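import Vale.Agent.P204.Full.Base.Flat

/-!
# P204 Base: Sobolev embedding and quadratic norms on the model space
-/

open scoped Manifold ContDiff Topology ENNReal
open Set Filter MeasureTheory

noncomputable section

namespace Vale.Agent.P204.Full.Base

/-- Cut-off equal to one on the ball of radius three, zero outside radius seven halves. -/
def wideBump : ContDiffBump (0 : R4) := ⟨3, 7 / 2, by norm_num, by norm_num⟩

/-- Cauchy-Schwarz. -/
lemma integral_mul_le_sqrt {α : Type*} [MeasurableSpace α] {μ : Measure α} {h k : α → ℝ}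
    (hh : Integrable (fun y => h y ^ 2) μ) (hk : Integrable (fun y => k y ^ 2) μ)
    (hhk : Integrable (fun y => h y * k y) μ) :
    ∫ y, h y * k y ∂μ ≤ Real.sqrt (∫ y, h y ^ 2 ∂μ) * Real.sqrt (∫ y, k y ^ 2 ∂μ) := by
  have hh0 : 0 ≤ ∫ y, h y ^ 2 ∂μ := integral_nonneg fun y => sq_nonneg _
  rw [← Real.sqrt_mul hh0]
  refine Real.le_sqrt_of_sq_le ?_
  have hkey : ∀ t : ℝ, 0 ≤ (∫ y, k y ^ 2 ∂μ) * (t * t) + -2 * (∫ y, h y * k y ∂μ) * t +
      ∫ y, h y ^ 2 ∂μ := by
    intro t
    have e1 : (fun y => (h y - t * k y) ^ 2) =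
        fun y => h y ^ 2 - 2 * t * (h y * k y) + t * t * k y ^ 2 := by
      funext y
      ring
    have e : ∫ y, (h y - t * k y) ^ 2 ∂μ = (∫ y, k y ^ 2 ∂μ) * (t * t) +
        -2 * (∫ y, h y * k y ∂μ) * t + ∫ y, h y ^ 2 ∂μ := by
      have i1 : Integrable (fun y => h y ^ 2 - 2 * t * (h y * k y)) μ := hh.sub (hhk.const_mul _)
      rw [e1, integral_add i1 (hk.const_mul _),
        integral_sub hh (hhk.const_mul _), integral_const_mul, integral_const_mul]
      ring
    rw [← e]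
    exact integral_nonneg fun y => sq_nonneg _
  have h := discrim_le_zero hkey
  unfold discrim at h
  nlinarith

lemma int_sq_scalar {h : R4 → ℝ} (hc : Continuous h) (hs : HasCompactSupport h) :
    Integrable fun y => h y ^ 2 := by
  simp only [pow_two]
  exact (hc.mul hc).integrable_of_hasCompactSupport (HasCompactSupport.mul_left hs)

/-- Iterating a bound along lines. -/
lemma iterate_lines {N : ℕ → R4 → ℝ} (hN : ∀ m, Continuous (N m)) (hcs : ∀ m, HasCompactSupport (N m))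
    (h0 : ∀ m z, 0 ≤ N m z)
    (hl : ∀ m (k : Fin 4) (v : Fin 4 → ℝ), ENNReal.ofReal (N m (WithLp.toLp 2 v)) ≤
      ∫⁻ t, ENNReal.ofReal (N (m + 1) (WithLp.toLp 2 (Function.update v k t))))
    (j : ℕ) (y : R4) : N j y ≤ ∫ z, N (j + 4) z := by
  let F : ℕ → (Fin 4 → ℝ) → ℝ≥0∞ := fun m v => ENNReal.ofReal (N m (WithLp.toLp 2 v))
  have hFm : ∀ m, Measurable (F m) := fun m =>
    ((hN m).comp (PiLp.continuous_toLp 2 _)).measurable.ennreal_ofReal
  have hind : ∀ s : Finset (Fin 4), F j ≤ ∫⋯∫⁻_s, F (j + s.card) ∂fun _ => volume := by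
    intro s
    induction s using Finset.induction_on with
    | empty => simp
    | @insert k s hk ih =>
      refine ih.trans ?_
      rw [lmarginal_insert' _ (hFm _) hk, Finset.card_insert_of_notMem hk]
      exact lmarginal_mono fun v => hl (j + s.card) k v
  have h := hind Finset.univ y.ofLp
  rw [lmarginal_univ, Finset.card_univ, Fintype.card_fin] at h
  have hmp : MeasurePreserving (WithLp.toLp 2 : (Fin 4 → ℝ) → R4) :=
    PiLp.volume_preserving_toLp (Fin 4)
  have h' : ENNReal.ofReal (N j y) ≤ ∫⁻ z, ENNReal.ofReal (N (j + 4) z) := by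
    rw [← hmp.lintegral_comp (hN _).measurable.ennreal_ofReal, volume_pi]
    simpa [F] using h
  rw [← ofReal_integral_eq_lintegral_ofReal ((hN _).integrable_of_hasCompactSupport (hcs _))
    (Eventually.of_forall fun z => h0 _ z),
    ENNReal.ofReal_le_ofReal_iff (integral_nonneg fun z => h0 _ z)] at h'
  exact h'

section Generic

variable {E : Type*} [NormedAddCommGroup E] [NormedSpace ℝ E]

/-- The `L²` norm of the `l`-th derivative. -/
def T2 (l : ℕ) (g : R4 → E) : ℝ := Real.sqrt (∫ y, ‖iteratedFDeriv ℝ l g y‖ ^ 2)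

lemma T2_nonneg (l : ℕ) (g : R4 → E) : 0 ≤ T2 l g := Real.sqrt_nonneg _

lemma cs_iter {g : R4 → E} (hgc : HasCompactSupport g) (l : ℕ) :
    HasCompactSupport (iteratedFDeriv ℝ l g) :=
  hgc.mono' fun _ hy => tsupport_iteratedFDeriv_subset l (subset_closure hy)

lemma norm_iter_cont {g : R4 → E} (hg : ContDiff ℝ ∞ g) (l : ℕ) :
    Continuous fun y => ‖iteratedFDeriv ℝ l g y‖ :=
  (hg.continuous_iteratedFDeriv (WithTop.coe_le_coe.2 le_top)).norm

lemma int_sq {g : R4 → E} (hg : ContDiff ℝ ∞ g) (hgc : HasCompactSupport g) (l : ℕ) :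
    Integrable fun y => ‖iteratedFDeriv ℝ l g y‖ ^ 2 :=
  int_sq_scalar (norm_iter_cont hg l) (cs_iter hgc l).norm

lemma T2_smul {g : R4 → E} (hg : ContDiff ℝ ∞ g) (a : ℝ) (l : ℕ) :
    T2 l (fun y => a • g y) = |a| * T2 l g := by
  have h : ∀ y, ‖iteratedFDeriv ℝ l (fun y => a • g y) y‖ ^ 2 =
      |a| ^ 2 * ‖iteratedFDeriv ℝ l g y‖ ^ 2 := fun y => by
    rw [iteratedFDeriv_const_smul_apply' (hg.of_le (WithTop.coe_le_coe.2 le_top)).contDiffAt,
      norm_smul, Real.norm_eq_abs, mul_pow]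
  rw [T2, T2]
  simp only [h]
  rw [integral_const_mul, Real.sqrt_mul (sq_nonneg _), Real.sqrt_sq (abs_nonneg a)]

lemma T2_add {f g : R4 → E} (hf : ContDiff ℝ ∞ f) (hfc : HasCompactSupport f)
    (hg : ContDiff ℝ ∞ g) (hgc : HasCompactSupport g) (l : ℕ) :
    T2 l (fun y => f y + g y) ≤ T2 l f + T2 l g := by
  set A := fun y => ‖iteratedFDeriv ℝ l f y‖ with hA
  set B := fun y => ‖iteratedFDeriv ℝ l g y‖ with hB
  have iA : Integrable fun y => A y ^ 2 := int_sq hf hfc l
  have iB : Integrable fun y => B y ^ 2 := int_sq hg hgc l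
  have iAB : Integrable fun y => A y * B y :=
    ((norm_iter_cont hf l).mul (norm_iter_cont hg l)).integrable_of_hasCompactSupport
      (HasCompactSupport.mul_right ((cs_iter hfc l).norm))
  have hsq : Integrable fun y => A y ^ 2 + 2 * (A y * B y) + B y ^ 2 :=
    (iA.add (iAB.const_mul 2)).add iB
  refine Real.sqrt_le_iff.2 ⟨add_nonneg (T2_nonneg _ _) (T2_nonneg _ _), ?_⟩
  refine (integral_mono_of_nonneg (Eventually.of_forall fun y => sq_nonneg _) hsq
    (Eventually.of_forall fun y => ?_)).trans ?_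
  · show ‖iteratedFDeriv ℝ l (fun y => f y + g y) y‖ ^ 2 ≤ A y ^ 2 + 2 * (A y * B y) + B y ^ 2
    rw [show (fun y => f y + g y) = f + g from rfl,
      iteratedFDeriv_add_apply (hf.of_le (WithTop.coe_le_coe.2 le_top)).contDiffAt
        (hg.of_le (WithTop.coe_le_coe.2 le_top)).contDiffAt]
    calc ‖iteratedFDeriv ℝ l f y + iteratedFDeriv ℝ l g y‖ ^ 2 ≤ (A y + B y) ^ 2 :=
          pow_le_pow_left₀ (norm_nonneg _) (norm_add_le _ _) 2
      _ = _ := by ring
  · have hmid := integral_mul_le_sqrt iA iB iAB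
    have ha0 : 0 ≤ ∫ y, A y ^ 2 := integral_nonneg fun y => sq_nonneg _
    have hb0 : 0 ≤ ∫ y, B y ^ 2 := integral_nonneg fun y => sq_nonneg _
    have i2 : Integrable fun y => A y ^ 2 + 2 * (A y * B y) := iA.add (iAB.const_mul 2)
    rw [integral_add i2 iB, integral_add iA (iAB.const_mul 2), integral_const_mul]
    show _ ≤ (Real.sqrt (∫ y, A y ^ 2) + Real.sqrt (∫ y, B y ^ 2)) ^ 2
    rw [add_sq, Real.sq_sqrt ha0, Real.sq_sqrt hb0]
    linarith

/-- A bounded smooth multiplier is bounded in each quadratic Sobolev norm. -/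
lemma T2_clm {L : R4 → E →L[ℝ] E} (hL : ContDiff ℝ ∞ L) (hLc : HasCompactSupport L) (l : ℕ) :
    ∃ C : ℝ, 0 ≤ C ∧ ∀ g : R4 → E, ContDiff ℝ ∞ g → HasCompactSupport g →
      T2 l (fun y => L y (g y)) ≤ C * ∑ m ∈ Finset.range (l + 1), T2 m g := by
  have hbd : ∀ m : Fin (l + 1), ∃ C, ∀ y, ‖iteratedFDeriv ℝ (m : ℕ) L y‖ ≤ C := fun m =>
    (hL.continuous_iteratedFDeriv (WithTop.coe_le_coe.2 le_top)).bounded_above_of_compact_support
      (cs_iter hLc m)
  choose C hC using hbd
  obtain ⟨M, hM⟩ := Finite.exists_le C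
  refine ⟨Real.sqrt ((l + 1 : ℕ) : ℝ) * (2 ^ l * max M 0), by positivity, fun g hg hgc => ?_⟩
  set K := (2 : ℝ) ^ l * max M 0 with hK
  have hK0 : 0 ≤ K := by positivity
  let N : ℕ → R4 → ℝ := fun m y => ‖iteratedFDeriv ℝ m g y‖
  have hpt : ∀ y, ‖iteratedFDeriv ℝ l (fun y => L y (g y)) y‖ ^ 2 ≤
      ((l + 1 : ℕ) : ℝ) * K ^ 2 * ∑ m ∈ Finset.range (l + 1), N m y ^ 2 := by
    intro y
    have h1 := norm_iteratedFDeriv_clm_apply (n := l) hL hg y (WithTop.coe_le_coe.2 le_top)
    have h2 : ∀ k ∈ Finset.range (l + 1),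
        (l.choose k : ℝ) * ‖iteratedFDeriv ℝ k L y‖ * ‖iteratedFDeriv ℝ (l - k) g y‖ ≤
          K * N (l - k) y := fun k hk => by
      refine mul_le_mul_of_nonneg_right (mul_le_mul ?_ ?_ (norm_nonneg _) (by positivity))
        (norm_nonneg _)
      · exact_mod_cast Nat.choose_le_two_pow l k
      · exact ((hC ⟨k, Finset.mem_range.1 hk⟩ y).trans (hM _)).trans (le_max_left _ _)
    have h3 : ‖iteratedFDeriv ℝ l (fun y => L y (g y)) y‖ ≤
        K * ∑ m ∈ Finset.range (l + 1), N m y := by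
      refine (h1.trans (Finset.sum_le_sum h2)).trans_eq ?_
      rw [Finset.mul_sum, ← Finset.sum_range_reflect (fun m => K * N m y)]
      simp
    refine (pow_le_pow_left₀ (norm_nonneg _) h3 2).trans ?_
    rw [mul_pow]
    have h4 := sq_sum_le_card_mul_sum_sq (s := Finset.range (l + 1)) (f := fun m => N m y)
    rw [Finset.card_range] at h4
    calc K ^ 2 * (∑ m ∈ Finset.range (l + 1), N m y) ^ 2
        ≤ K ^ 2 * (((l + 1 : ℕ) : ℝ) * ∑ m ∈ Finset.range (l + 1), N m y ^ 2) := by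
          gcongr
      _ = _ := by ring
  have iN : ∀ m ∈ Finset.range (l + 1), Integrable fun y => N m y ^ 2 :=
    fun m _ => int_sq hg hgc m
  refine Real.sqrt_le_iff.2 ⟨mul_nonneg (by positivity)
    (Finset.sum_nonneg fun m _ => T2_nonneg m g), ?_⟩
  refine (integral_mono_of_nonneg (Eventually.of_forall fun y => sq_nonneg _)
    ((integrable_finsetSum _ iN).const_mul _) (Eventually.of_forall hpt)).trans ?_
  rw [integral_const_mul, integral_finsetSum _ iN, mul_pow (Real.sqrt ((l + 1 : ℕ) : ℝ) * K),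
    mul_pow (Real.sqrt ((l + 1 : ℕ) : ℝ)) K, Real.sq_sqrt (Nat.cast_nonneg _)]
  refine mul_le_mul_of_nonneg_left ?_ (by positivity)
  calc ∑ m ∈ Finset.range (l + 1), ∫ y, N m y ^ 2
      = ∑ m ∈ Finset.range (l + 1), T2 m g ^ 2 := Finset.sum_congr rfl fun m _ =>
        (Real.sq_sqrt (integral_nonneg fun y => sq_nonneg _)).symm
    _ ≤ (∑ m ∈ Finset.range (l + 1), T2 m g) ^ 2 :=
        Finset.sum_sq_le_sq_sum_of_nonneg fun m _ => T2_nonneg m g

/-- One derivative controls the values along a line. -/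
lemma line_bound0 {h : R4 → E} (hh : ContDiff ℝ 1 h) (hc : HasCompactSupport h) (k : Fin 4)
    (v : Fin 4 → ℝ) :
    ‖h (WithLp.toLp 2 v)‖ₑ ≤
      ∫⁻ t, ‖fderiv ℝ h (WithLp.toLp 2 (Function.update v k t))‖ₑ := by
  set p : R4 := WithLp.toLp 2 v with hp
  set γ : ℝ → R4 := fun t => p + (t - v k) • bvec k with hγdef
  have hγ : ∀ t, WithLp.toLp 2 (Function.update v k t) = γ t := fun t => by
    ext j
    by_cases h : j = k
    · subst h
      simp [hγdef, hp, bvec]
    · simp [hγdef, hp, bvec, h]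
  have hγc : ContDiff ℝ 1 γ := by
    rw [hγdef]
    fun_prop
  have hb : bvec k k = 1 := by simp [bvec]
  have hemb : Topology.IsClosedEmbedding γ := by
    have hl : Function.LeftInverse (fun y : R4 => y k) γ := fun t => by simp [hγdef, hp, hb]
    exact hl.isClosedEmbedding (by fun_prop) hγc.continuous
  have h3 := (hc.comp_isClosedEmbedding hemb).enorm_le_lintegral_Ici_deriv (hh.comp hγc) (v k)
  have h0 : γ (v k) = p := by simp [hγdef]
  rw [Function.comp_apply, h0] at h3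
  refine h3.trans ((setLIntegral_le_lintegral _ _).trans (lintegral_mono fun t => ?_))
  rw [hγ t]
  have hd : HasFDerivAt h (fderiv ℝ h (γ t)) (γ t) :=
    (hh.differentiable one_ne_zero _).hasFDerivAt
  have hγd : HasDerivAt γ ((1 : ℝ) • bvec k) t :=
    (((hasDerivAt_id t).sub_const (v k)).smul_const (bvec k)).const_add p
  rw [(hd.comp_hasDerivAt t hγd).deriv, one_smul, ← ofReal_norm, ← ofReal_norm]
  refine ENNReal.ofReal_le_ofReal ((ContinuousLinearMap.le_opNorm _ _).trans ?_)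
  simp [bvec]

lemma line_bound {g : R4 → E} (hg : ContDiff ℝ ∞ g) (hgc : HasCompactSupport g) (m : ℕ) (k : Fin 4)
    (v : Fin 4 → ℝ) :
    ‖iteratedFDeriv ℝ m g (WithLp.toLp 2 v)‖ₑ ≤
      ∫⁻ t, ‖iteratedFDeriv ℝ (m + 1) g (WithLp.toLp 2 (Function.update v k t))‖ₑ := by
  refine (line_bound0 (hg.iteratedFDeriv_right (m := 1) (WithTop.coe_le_coe.2 le_top))
    (cs_iter hgc m) k v).trans (lintegral_mono fun t => ?_)
  rw [← ofReal_norm, ← ofReal_norm, norm_fderiv_iteratedFDeriv]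

/-- Four derivatives in `L²` control the values. -/
lemma sup_le_T2 (j : ℕ) : ∃ C : ℝ, 0 ≤ C ∧ ∀ g : R4 → E, ContDiff ℝ ∞ g →
    tsupport g ⊆ Metric.closedBall 0 3 → ∀ y, ‖iteratedFDeriv ℝ j g y‖ ≤ C * T2 (j + 4) g := by
  refine ⟨Real.sqrt (∫ y, (wideBump : R4 → ℝ) y ^ 2), Real.sqrt_nonneg _, fun g hg hs y => ?_⟩
  have hgc : HasCompactSupport g :=
    (isCompact_closedBall _ _).of_isClosed_subset (isClosed_tsupport _) hs
  have h' := iterate_lines (norm_iter_cont hg) (fun m => (cs_iter hgc m).norm)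
    (fun m z => norm_nonneg _) (fun m k v => by
      simpa only [ofReal_norm] using line_bound hg hgc m k v) j y
  refine h'.trans ?_
  have hw : ∀ z, ‖iteratedFDeriv ℝ (j + 4) g z‖ =
      (wideBump : R4 → ℝ) z * ‖iteratedFDeriv ℝ (j + 4) g z‖ := fun z => by
    by_cases hz : z ∈ Metric.closedBall (0 : R4) 3
    · rw [wideBump.one_of_mem_closedBall hz, one_mul]
    · have : iteratedFDeriv ℝ (j + 4) g z = 0 := image_eq_zero_of_notMem_tsupport fun hm =>
        hz (hs (tsupport_iteratedFDeriv_subset _ hm))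
      rw [this, norm_zero, mul_zero]
  rw [integral_congr_ae (Eventually.of_forall hw)]
  exact integral_mul_le_sqrt (int_sq_scalar wideBump.continuous wideBump.hasCompactSupport)
    (int_sq hg hgc _) ((wideBump.continuous.mul (norm_iter_cont hg _)).integrable_of_hasCompactSupport
      wideBump.hasCompactSupport.mul_right)

end Generic

end Vale.Agent.P204.Full.Base
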