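import Vale.Agent.P204.Full.Base.Duality
import Vale.Agent.P204.Full.Base.Sobolev

/-!
# P204 Base: the norms of the finite atlas
-/

open scoped Manifold ContDiff Topology
open Set Filter MeasureTheory

noncomputable section

namespace Vale.Agent.P204.Full.Base

universe u

/-! ### Linear operators on the model space -/

/-- Operators on two-forms; shortcut to the inferred instances. -/
instance opNormedGroup : NormedAddCommGroup (Bil →L[ℝ] Bil) :=
  ContinuousLinearMap.toNormedAddCommGroup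

instance opNormedSpace : NormedSpace ℝ (Bil →L[ℝ] Bil) := ContinuousLinearMap.toNormedSpace

/-- Composition on the right. -/
def compR : Endo →L[ℝ] Bil →L[ℝ] Bil :=
  (ContinuousLinearMap.compL ℝ R4 R4 Cov).flip

lemma compR_apply (A : Endo) (b : Bil) : compR A b = b.comp A := rfl

/-- Pull-back as a linear operator. -/
def pullL (A : Endo) : Bil →L[ℝ] Bil :=
  (flipB.comp (compR A)).comp (flipB.comp (compR A))

lemma pullL_apply (A : Endo) (b : Bil) : pullL A b = pullBil A b := rfl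

lemma cdOn_pullL {A : R4 → Endo} {s : Set R4} (hA : ContDiffOn ℝ ∞ A s) :
    ContDiffOn ℝ ∞ (fun y => pullL (A y)) s :=
  have h1 : ContDiffOn ℝ ∞ (fun y => compR (A y)) s :=
    cdOn_clm (E := Endo) (F := Bil →L[ℝ] Bil) compR hA
  ((contDiffOn_const (c := flipB)).clm_comp h1).clm_comp
    ((contDiffOn_const (c := flipB)).clm_comp h1)

lemma wideBump_one {y : R4} (hy : y ∈ Metric.closedBall (0 : R4) 3) : wideBump y = 1 :=
  wideBump.one_of_mem_closedBall hy

lemma wideBump_zero {y : R4} (hy : y ∉ Metric.closedBall (0 : R4) (7 / 2)) : wideBump y = 0 :=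
  image_eq_zero_of_notMem_tsupport (by rwa [wideBump.tsupport_eq])

variable {X : Type u} [TopologicalSpace X] [ChartedSpace R4 X] [IsManifold 𝓘(ℝ, R4) ∞ X]
  (G : Geo X)

/-- A form read in a chart and cut off. -/
def kv (i : Fin G.n) (θ : X → Bil) (z : R4) : Bil := kappaBump z • view2 (G.c i) θ z

lemma hn_eq (l : ℕ) (θ : X → Bil) : G.hn l θ = ∑ i, T2 l (kv G i θ) := rfl

lemma cd_kv {θ : X → Bil} (hθ : Smooth2 θ) (i : Fin G.n) : ContDiff ℝ ∞ (kv G i θ) :=
  cd_kappa_view2 G hθ i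

lemma ts_kv (i : Fin G.n) (θ : X → Bil) : tsupport (kv G i θ) ⊆ Metric.closedBall 0 3 := by
  refine closure_minimal (fun y hy => ?_) Metric.isClosed_closedBall
  by_contra h
  exact hy (show kappaBump y • view2 (G.c i) θ y = 0 by rw [kappa_zero h, zero_smul])

lemma cs_kv (i : Fin G.n) (θ : X → Bil) : HasCompactSupport (kv G i θ) :=
  (isCompact_closedBall _ _).of_isClosed_subset (isClosed_tsupport _) (ts_kv G i θ)

lemma hn_nonneg (l : ℕ) (θ : X → Bil) : 0 ≤ G.hn l θ :=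
  Finset.sum_nonneg fun _ _ => Real.sqrt_nonneg _

lemma T2_le_hn (i : Fin G.n) (l : ℕ) (θ : X → Bil) : T2 l (kv G i θ) ≤ G.hn l θ :=
  Finset.single_le_sum (f := fun i => T2 l (kv G i θ)) (fun _ _ => T2_nonneg _ _) (Finset.mem_univ i)

lemma hn_le_hsum {l j : ℕ} (h : l ≤ j) (θ : X → Bil) : G.hn l θ ≤ G.hsum j θ :=
  Finset.single_le_sum (f := fun l => G.hn l θ) (fun _ _ => hn_nonneg G _ _)
    (Finset.mem_range.2 (Nat.lt_succ_of_le h))

lemma hn_add (j : ℕ) (θ η : X → Bil) (hθ : Smooth2 θ) (hη : Smooth2 η) :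
    G.hn j (θ + η) ≤ G.hn j θ + G.hn j η := by
  rw [hn_eq, hn_eq, hn_eq, ← Finset.sum_add_distrib]
  refine Finset.sum_le_sum fun i _ => ?_
  have h : kv G i (θ + η) = fun z => kv G i θ z + kv G i η z :=
    funext fun z => smul_add (kappaBump z) (view2 (G.c i) θ z) (view2 (G.c i) η z)
  rw [h]
  exact T2_add (cd_kv G hθ i) (cs_kv G i θ) (cd_kv G hη i) (cs_kv G i η) j

lemma hn_smul (j : ℕ) (a : ℝ) (θ : X → Bil) (hθ : Smooth2 θ) :
    G.hn j (a • θ) = |a| * G.hn j θ := by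
  rw [hn_eq, hn_eq, Finset.mul_sum]
  refine Finset.sum_congr rfl fun i _ => ?_
  have h : kv G i (a • θ) = fun z => a • kv G i θ z :=
    funext fun z => smul_comm (kappaBump z) a (view2 (G.c i) θ z)
  rw [h]
  exact T2_smul (cd_kv G hθ i) a j

/-! ### Sobolev embedding -/

lemma sobolev (j : ℕ) : ∃ C : ℝ, ∀ θ, Smooth2 θ → ∀ i y,
    ‖iteratedFDeriv ℝ j (fun z => kappaBump z • view2 (G.c i) θ z) y‖ ≤ C * G.hsum (j + 4) θ := by
  obtain ⟨C, hC0, hC⟩ := sup_le_T2 (E := Bil) j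
  exact ⟨C, fun θ hθ i y => (hC _ (cd_kv G hθ i) (ts_kv G i θ) y).trans
    (mul_le_mul_of_nonneg_left ((T2_le_hn G i _ θ).trans (hn_le_hsum G le_rfl θ)) hC0)⟩

lemma sobolev_nrm : ∃ C : ℝ, ∀ θ, Smooth2 θ → ∀ x, G.nrm2 θ x ≤ C * G.hsum 4 θ := by
  obtain ⟨C, hC⟩ := sobolev G 0
  refine ⟨C, fun θ hθ x => ?_⟩
  calc G.nrm2 θ x ≤ ∑ i, G.rho i x * (C * G.hsum 4 θ) := by
        refine Finset.sum_le_sum fun i _ => ?_
        rcases eq_or_ne (G.rho i x) 0 with h | h
        · simp [h]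
        · refine mul_le_mul_of_nonneg_left ?_ (rho_nonneg G i x)
          have hk := hC θ hθ i (G.c i x)
          rw [norm_iteratedFDeriv_zero,
            kappa_one (mem_closedBall_zero_iff.2 (rho_supp G i x h).2.le), one_smul] at hk
          exact hk
    _ = C * G.hsum 4 θ := by rw [← Finset.sum_mul, rho_sum, one_mul]

/-! ### The projections -/

lemma cd_wide {Φ : R4 → Bil →L[ℝ] Bil} (i : Fin G.n) (hΦ : ContDiffOn ℝ ∞ Φ (G.c i).target) :
    ContDiff ℝ ∞ fun y => wideBump y • Φ y :=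
  cd_extend (E := Bil →L[ℝ] Bil) (G.c i).open_target
    (cdOn_smul (E := Bil →L[ℝ] Bil) wideBump.contDiff.contDiffOn hΦ)
    (Metric.isClosed_closedBall (x := (0 : R4)) (ε := 7 / 2))
    (closedBall_subset_target G i (by norm_num))
    fun y hy => by rw [wideBump_zero hy, zero_smul]

lemma kv_op {Φ : R4 → Bil →L[ℝ] Bil} (i : Fin G.n) (θ θ' : X → Bil)
    (h : ∀ y ∈ (G.c i).target, view2 (G.c i) θ' y = Φ y (view2 (G.c i) θ y)) :
    kv G i θ' = fun y => (wideBump y • Φ y) (kv G i θ y) := by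
  funext y
  show kappaBump y • view2 (G.c i) θ' y = wideBump y • Φ y (kappaBump y • view2 (G.c i) θ y)
  by_cases hy : y ∈ Metric.closedBall (0 : R4) 3
  · rw [wideBump_one hy, one_smul, h y (closedBall_subset_target G i (by norm_num) hy), map_smul]
  · rw [kappa_zero hy, zero_smul, zero_smul, map_zero, smul_zero]

lemma cs_wide (Φ : R4 → Bil →L[ℝ] Bil) : HasCompactSupport fun y => wideBump y • Φ y :=
  wideBump.hasCompactSupport.smul_right

lemma op_bound (Φ : Fin G.n → R4 → Bil →L[ℝ] Bil)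
    (hΦ : ∀ i, ContDiffOn ℝ ∞ (Φ i) (G.c i).target) (op : (X → Bil) → X → Bil)
    (hop : ∀ i θ, ∀ y ∈ (G.c i).target, view2 (G.c i) (op θ) y = Φ i y (view2 (G.c i) θ y))
    (j : ℕ) : ∃ C : ℝ, 0 ≤ C ∧ ∀ θ, Smooth2 θ → G.hsum j (op θ) ≤ C * G.hsum j θ := by
  have hb : ∀ l : Fin (j + 1), ∀ i, ∃ C : ℝ, 0 ≤ C ∧ ∀ g : R4 → Bil, ContDiff ℝ ∞ g →
      HasCompactSupport g → T2 l (fun y => (wideBump y • Φ i y) (g y)) ≤
        C * ∑ m ∈ Finset.range ((l : ℕ) + 1), T2 m g :=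
    fun l i => T2_clm (E := Bil) (cd_wide G i (hΦ i)) (cs_wide (Φ i)) l
  choose C hC0 hC using hb
  refine ⟨∑ l, ∑ i, C l i, Finset.sum_nonneg fun l _ => Finset.sum_nonneg fun i _ => hC0 l i,
    fun θ hθ => ?_⟩
  rw [Finset.sum_mul, Geo.hsum, Finset.sum_range (fun l => G.hn l (op θ))]
  refine Finset.sum_le_sum fun l _ => ?_
  rw [hn_eq, Finset.sum_mul]
  refine Finset.sum_le_sum fun i _ => ?_
  rw [kv_op G i θ (op θ) (hop i θ)]
  refine (hC l i _ (cd_kv G hθ i) (cs_kv G i θ)).trans (mul_le_mul_of_nonneg_left ?_ (hC0 l i))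
  refine (Finset.sum_le_sum fun m _ => T2_le_hn G i m θ).trans ?_
  exact Finset.sum_le_sum_of_subset_of_nonneg
    (Finset.range_mono (by have := l.2; omega)) fun m _ _ => hn_nonneg G m θ

lemma p20_hsum (j : ℕ) : ∃ C : ℝ, ∀ θ, Smooth2 θ →
    G.hsum j (G.p20 θ) ≤ C * G.hsum j θ ∧ G.hsum j (G.p11 θ) ≤ C * G.hsum j θ := by
  obtain ⟨C₁, h10, h1⟩ := op_bound G
    (fun i y => (2⁻¹ : ℝ) • (ContinuousLinearMap.id ℝ Bil - pullL (viewJ G.J (G.c i) y)))
    (fun i => (ContDiffOn.sub (F := Bil →L[ℝ] Bil) contDiffOn_const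
      (cdOn_pullL (smooth_viewJ G.J_acs (G.c_mem i)))).const_smul _)
    G.p20 (fun i θ y hy => view2_p20 G θ (G.c_mem i) hy) j
  obtain ⟨C₂, h20, h2⟩ := op_bound G
    (fun i y => (2⁻¹ : ℝ) • (ContinuousLinearMap.id ℝ Bil + pullL (viewJ G.J (G.c i) y)))
    (fun i => (ContDiffOn.add (F := Bil →L[ℝ] Bil) contDiffOn_const
      (cdOn_pullL (smooth_viewJ G.J_acs (G.c_mem i)))).const_smul _)
    G.p11 (fun i θ y hy => view2_p11 G θ (G.c_mem i) hy) j
  have h0 : ∀ θ, 0 ≤ G.hsum j θ := fun θ => Finset.sum_nonneg fun l _ => hn_nonneg G l θ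
  exact ⟨C₁ + C₂, fun θ hθ =>
    ⟨(h1 θ hθ).trans (mul_le_mul_of_nonneg_right (le_add_of_nonneg_right h20) (h0 θ)),
      (h2 θ hθ).trans (mul_le_mul_of_nonneg_right (le_add_of_nonneg_left h10) (h0 θ))⟩⟩

/-! ### Comparison of the two quadratic norms -/

variable [T2Space X] [CompactSpace X] [MeasurableSpace X] [BorelSpace X]

lemma l2_hn : ∃ C : ℝ, ∀ θ, Smooth2 θ → G.l2 θ ≤ C * G.hn 0 θ ∧ G.hn 0 θ ≤ C * G.l2 θ := by
  obtain ⟨C, hC1, hC⟩ := nrm2_view G
  obtain ⟨m, M, hm, hM, hb⟩ := D_bounds G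
  have hfin := vol_finite G
  refine ⟨C * Real.sqrt M + (G.n : ℝ) * (C * Real.sqrt m⁻¹), fun θ hθ => ?_⟩
  have hC0 : 0 ≤ C := zero_le_one.trans hC1
  have hnc : Continuous fun x => G.nrm2 θ x ^ 2 := (nrm2_cont G (smooth_cont hθ)).pow 2
  have hni : Integrable (fun x => G.nrm2 θ x ^ 2) G.vol := integrable_cont G hnc
  have hI0 : 0 ≤ ∫ x, G.nrm2 θ x ^ 2 ∂G.vol := integral_nonneg fun x => sq_nonneg _
  have hn0 : ∀ x, 0 ≤ G.nrm2 θ x := fun x =>
    Finset.sum_nonneg fun i _ => mul_nonneg (rho_nonneg G i x) (norm_nonneg _)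
  have hkc : ∀ i, Continuous fun y => ‖kv G i θ y‖ := fun i => (cd_kv G hθ i).continuous.norm
  have hki : ∀ i, Integrable fun y => ‖kv G i θ y‖ ^ 2 := fun i =>
    int_sq_scalar (hkc i) (cs_kv G i θ).norm
  have hT : ∀ i, T2 0 (kv G i θ) = Real.sqrt (∫ y, ‖kv G i θ y‖ ^ 2) := fun i => by
    simp only [T2, norm_iteratedFDeriv_zero]
  have hle : ∫ x, G.nrm2 θ x ^ 2 ∂G.vol ≤ (C ^ 2 * M) * ∑ i, ∫ y, ‖kv G i θ y‖ ^ 2 := by
    rw [vol_eq, integral_finsetSum_measure fun k _ => hni.mono_measure (part_le G k),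
      Finset.mul_sum]
    refine Finset.sum_le_sum fun i _ => ?_
    obtain ⟨hint, hval⟩ := part_integral G i (hni.mono_measure (part_le G i))
    rw [hval]
    refine (setIntegral_mono_on hint ((hki i).const_mul (C ^ 2 * M)).integrableOn
      (G.c i).open_target.measurableSet fun y hy => ?_).trans
        ((setIntegral_le_integral ((hki i).const_mul _)
          (Eventually.of_forall fun y => mul_nonneg (by positivity) (sq_nonneg _))).trans_eq
          (integral_const_mul _ _))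
    set r := G.rho i ((G.c i).symm y) with hr
    rcases eq_or_ne r 0 with h | h
    · rw [h, zero_mul, zero_mul]
      positivity
    · have hy2 : ‖y‖ ≤ 2 := le_of_not_gt fun h2 => h (dens_zero G i hy h2)
      have hkv : kv G i θ y = view2 (G.c i) θ y := by
        rw [kv, kappa_one (mem_closedBall_zero_iff.2 hy2), one_smul]
      have hr1 : r ≤ 1 := by
        rw [hr, ← rho_sum G ((G.c i).symm y)]
        exact Finset.single_le_sum (fun k _ => rho_nonneg G k _) (Finset.mem_univ i)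
      have hN := (hC i θ y (hy2.trans (by norm_num))).2
      rw [← hkv] at hN
      have hD := (hb i y (mem_closedBall_zero_iff.2 (hy2.trans (by norm_num)))).2
      calc r * G.nrm2 θ ((G.c i).symm y) ^ 2 * D G i y
          ≤ 1 * (C * ‖kv G i θ y‖) ^ 2 * M :=
            mul_le_mul (mul_le_mul hr1 (pow_le_pow_left₀ (hn0 _) hN 2) (sq_nonneg _) zero_le_one)
              hD (D_pos G hy).le (by positivity)
        _ = C ^ 2 * M * ‖kv G i θ y‖ ^ 2 := by ring
  have hge : ∀ i, ∫ y, ‖kv G i θ y‖ ^ 2 ≤ (C ^ 2 * m⁻¹) * ∫ x, G.nrm2 θ x ^ 2 ∂G.vol := by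
    intro i
    set f : X → ℝ := (K G i 3).indicator fun x => G.nrm2 θ x ^ 2 with hf
    have hf0 : ∀ x, 0 ≤ f x := fun x => indicator_nonneg (fun _ _ => sq_nonneg _) x
    have hfi : Integrable f G.vol :=
      hni.indicator (isClosed_K G i (by norm_num)).measurableSet
    obtain ⟨hint, hval⟩ := vol_chart G i hfi fun x hx =>
      ((mem_K G (by norm_num)).1 (mem_of_indicator_ne_zero hx)).1
    have hfle : ∫ x, f x ∂G.vol ≤ ∫ x, G.nrm2 θ x ^ 2 ∂G.vol := integral_mono hfi hni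
      fun x => indicator_le_self' (fun _ _ => sq_nonneg _) x
    refine le_trans ?_ (mul_le_mul_of_nonneg_left hfle (by positivity))
    rw [hval, ← integral_const_mul, ← setIntegral_eq_integral_of_forall_compl_eq_zero
      (s := (G.c i).target) (f := fun y => ‖kv G i θ y‖ ^ 2) fun y hy => by
        rw [kv, kappa_zero fun h => hy (closedBall_subset_target G i (by norm_num) h), zero_smul,
          norm_zero, zero_pow two_ne_zero]]
    refine setIntegral_mono_on (hki i).integrableOn (hint.const_mul _)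
      (G.c i).open_target.measurableSet fun y hy => ?_
    by_cases h3 : y ∈ Metric.closedBall (0 : R4) 3
    · have hmem : (G.c i).symm y ∈ K G i 3 := mem_image_of_mem _ h3
      rw [hf, indicator_of_mem hmem]
      have hk1 : ‖kv G i θ y‖ ≤ ‖view2 (G.c i) θ y‖ := by
        rw [kv, norm_smul, Real.norm_eq_abs, abs_of_nonneg kappaBump.nonneg]
        exact mul_le_of_le_one_left (norm_nonneg _) kappaBump.le_one
      have hN := hk1.trans (hC i θ y (mem_closedBall_zero_iff.1 h3)).1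
      have hD := (hb i y (Metric.closedBall_subset_closedBall (by norm_num) h3)).1
      calc ‖kv G i θ y‖ ^ 2 ≤ (C * G.nrm2 θ ((G.c i).symm y)) ^ 2 * 1 := by
            rw [mul_one]
            exact pow_le_pow_left₀ (norm_nonneg _) hN 2
        _ ≤ (C * G.nrm2 θ ((G.c i).symm y)) ^ 2 * (m⁻¹ * D G i y) := by
            refine mul_le_mul_of_nonneg_left ?_ (sq_nonneg _)
            rw [le_inv_mul_iff₀ hm, mul_one]
            exact hD
        _ = C ^ 2 * m⁻¹ * (G.nrm2 θ ((G.c i).symm y) ^ 2 * D G i y) := by ring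
    · have hz : kv G i θ y = 0 := by rw [kv, kappa_zero h3, zero_smul]
      rw [hz, norm_zero, zero_pow two_ne_zero]
      have := D_pos G hy
      have := hf0 ((G.c i).symm y)
      positivity
  have hI : G.hn 0 θ = ∑ i, Real.sqrt (∫ y, ‖kv G i θ y‖ ^ 2) := by
    rw [hn_eq]
    simp only [hT]
  have hs0 : 0 ≤ G.hn 0 θ := hn_nonneg G 0 θ
  have hl0 : 0 ≤ G.l2 θ := Real.sqrt_nonneg _
  constructor
  · have h1 : G.l2 θ ≤ C * Real.sqrt M * G.hn 0 θ := by
      refine Real.sqrt_le_iff.2 ⟨by positivity, hle.trans ?_⟩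
      rw [mul_pow, mul_pow, Real.sq_sqrt hM.le, hI]
      refine mul_le_mul_of_nonneg_left ?_ (by positivity)
      calc ∑ i, ∫ y, ‖kv G i θ y‖ ^ 2
          = ∑ i, Real.sqrt (∫ y, ‖kv G i θ y‖ ^ 2) ^ 2 := Finset.sum_congr rfl fun i _ =>
            (Real.sq_sqrt (integral_nonneg fun y => sq_nonneg _)).symm
        _ ≤ _ := Finset.sum_sq_le_sq_sum_of_nonneg fun i _ => Real.sqrt_nonneg _
    refine h1.trans (mul_le_mul_of_nonneg_right (le_add_of_nonneg_right ?_) hs0)
    positivity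
  · have h1 : G.hn 0 θ ≤ (G.n : ℝ) * (C * Real.sqrt m⁻¹) * G.l2 θ := by
      rw [hI]
      refine (Finset.sum_le_sum fun i _ => ?_).trans_eq (b := ∑ _i : Fin G.n,
        C * Real.sqrt m⁻¹ * G.l2 θ) (by simp; ring)
      refine Real.sqrt_le_iff.2 ⟨by positivity, (hge i).trans_eq ?_⟩
      rw [mul_pow, mul_pow, Real.sq_sqrt (inv_nonneg.2 hm.le), Geo.l2, Real.sq_sqrt hI0]
    refine h1.trans (mul_le_mul_of_nonneg_right (le_add_of_nonneg_left ?_) hl0)
    positivity

end Vale.Agent.P204.Full.Base
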