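import Vale.Agent.P204.Full.Base.Atlas

/-!
# P204 Base: the measure of the positive form, integration in charts, size of the sets `near`
-/

open scoped Manifold ContDiff Topology ENNReal
open Set Filter MeasureTheory

noncomputable section

namespace Vale.Agent.P204.Full.Base

universe u

variable {X : Type u} [TopologicalSpace X] [ChartedSpace R4 X] [IsManifold 𝓘(ℝ, R4) ∞ X]
  (G : Geo X)

/-- The density of the measure in a chart of the atlas. -/
def D (i : Fin G.n) (y : R4) : ℝ := top22 (view2 (G.c i) G.omega y) (view2 (G.c i) G.omega y)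

lemma D_pos {i : Fin G.n} {y : R4} (hy : y ∈ (G.c i).target) : 0 < D G i y :=
  G.c_oriented i y hy

lemma D_cont (i : Fin G.n) : ContinuousOn (D G i) (G.c i).target :=
  have h := (smooth_view2 G.omega_smooth (G.c_mem i)).continuousOn
  cOn_top22 h h

lemma D_bounds : ∃ m M : ℝ, 0 < m ∧ 0 < M ∧ ∀ i, ∀ y ∈ Metric.closedBall (0 : R4) (7 / 2),
    m ≤ D G i y ∧ D G i y ≤ M := by
  have h : ∀ i, ∃ m M : ℝ, 0 < m ∧ 0 < M ∧ ∀ y ∈ Metric.closedBall (0 : R4) (7 / 2),
      m ≤ D G i y ∧ D G i y ≤ M := fun i => by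
    have hsub := closedBall_subset_target G i (show (7 / 2 : ℝ) < 4 by norm_num)
    have hne : (Metric.closedBall (0 : R4) (7 / 2)).Nonempty :=
      Metric.nonempty_closedBall.2 (by norm_num)
    obtain ⟨a, ha, hmin⟩ :=
      (isCompact_closedBall _ _).exists_isMinOn hne ((D_cont G i).mono hsub)
    obtain ⟨b, hb, hmax⟩ :=
      (isCompact_closedBall _ _).exists_isMaxOn hne ((D_cont G i).mono hsub)
    exact ⟨D G i a, D G i b, D_pos G (hsub ha), D_pos G (hsub hb),
      fun y hy => ⟨hmin hy, hmax hy⟩⟩
  choose m M hm hM hb using h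
  obtain ⟨A, hA⟩ := Finite.exists_le fun i => (m i)⁻¹
  obtain ⟨B, hB⟩ := Finite.exists_le M
  refine ⟨(max A 1)⁻¹, max B 1, by positivity, by positivity, fun i y hy => ⟨?_, ?_⟩⟩
  · refine le_trans ?_ (hb i y hy).1
    rw [inv_le_comm₀ (by positivity) (hm i)]
    exact (hA i).trans (le_max_left _ _)
  · exact (hb i y hy).2.trans ((hB i).trans (le_max_left _ _))

omit [IsManifold 𝓘(ℝ, R4) ∞ X] in
lemma trans_image {c e : OpenPartialHomeomorph X R4} : trans c e '' tdom c e = tdom e c :=
  Subset.antisymm (image_subset_iff.2 fun _ hy => trans_mem hy)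
    fun _ hz => ⟨_, trans_mem hz, trans_trans hz⟩

omit [IsManifold 𝓘(ℝ, R4) ∞ X] in
lemma trans_injOn {c e : OpenPartialHomeomorph X R4} : InjOn (trans c e) (tdom c e) :=
  fun a ha b hb h => by rw [← trans_trans ha, ← trans_trans hb, h]

lemma D_trans (i k : Fin G.n) {y : R4} (hy : y ∈ tdom (G.c k) (G.c i)) :
    D G k y = |(dtrans (G.c k) (G.c i) y).det| * D G i (trans (G.c k) (G.c i) y) := by
  have h : D G k y = (dtrans (G.c k) (G.c i) y).det * D G i (trans (G.c k) (G.c i) y) := by
    rw [D, D, view2_trans (G.c_mem k) (G.c_mem i) _ hy,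
      top22_pullBil _ (isAlt_view2 G.omega_smooth.1 _ _) (isAlt_view2 G.omega_smooth.1 _ _)]
  have hk := D_pos G (i := k) hy.1
  have hi := D_pos G (i := i) (trans_mem hy).1
  rw [h] at hk
  rw [h, abs_of_pos (pos_of_mul_pos_left hk hi.le)]

/-- Changing the chart of an integral. -/
lemma transfer (i k : Fin G.n) (h : X → ℝ)
    (hsupp : ∀ x, h x ≠ 0 → x ∈ (G.c i).source ∧ x ∈ (G.c k).source)
    (hk : IntegrableOn (fun y => h ((G.c k).symm y) * D G k y) (G.c k).target) :
    IntegrableOn (fun y => h ((G.c i).symm y) * D G i y) (G.c i).target ∧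
      ∫ y in (G.c k).target, h ((G.c k).symm y) * D G k y =
        ∫ y in (G.c i).target, h ((G.c i).symm y) * D G i y := by
  set g : R4 → ℝ := fun z => h ((G.c i).symm z) * D G i z with hg
  have hder : ∀ y ∈ tdom (G.c k) (G.c i), HasFDerivWithinAt (trans (G.c k) (G.c i))
      (dtrans (G.c k) (G.c i) y) (tdom (G.c k) (G.c i)) y :=
    fun y hy => (hasFDerivAt_trans (G.c_mem k) (G.c_mem i) hy).hasFDerivWithinAt
  have heq : ∀ y ∈ tdom (G.c k) (G.c i), h ((G.c k).symm y) * D G k y =
      |(dtrans (G.c k) (G.c i) y).det| • g (trans (G.c k) (G.c i) y) := fun y hy => by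
    rw [hg, D_trans G i k hy, smul_eq_mul]
    simp only [symm_trans hy]
    ring
  have hzero : ∀ (a b : Fin G.n), (∀ x, h x ≠ 0 → x ∈ (G.c b).source) →
      ∀ y ∈ (G.c a).target \ tdom (G.c a) (G.c b), h ((G.c a).symm y) * D G a y = 0 := by
    intro a b hb y hy
    by_contra hne
    exact hy.2 ⟨hy.1, hb _ (left_ne_zero_of_mul hne)⟩
  have hmo := (isOpen_tdom (G.c k) (G.c i)).measurableSet
  have hi1 : IntegrableOn g (tdom (G.c i) (G.c k)) := by
    rw [← trans_image, integrableOn_image_iff_integrableOn_abs_det_fderiv_smul volume hmo hder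
      trans_injOn]
    exact (hk.mono_set inter_subset_left).congr_fun heq hmo
  refine ⟨hi1.of_forall_sdiff_eq_zero (G.c i).open_target.measurableSet
    (hzero i k fun x hx => (hsupp x hx).2), ?_⟩
  rw [setIntegral_eq_of_subset_of_forall_sdiff_eq_zero (G.c k).open_target.measurableSet
      (inter_subset_left : tdom (G.c k) (G.c i) ⊆ _) (hzero k i fun x hx => (hsupp x hx).1),
    setIntegral_eq_of_subset_of_forall_sdiff_eq_zero (G.c i).open_target.measurableSet
      (inter_subset_left : tdom (G.c i) (G.c k) ⊆ _) (hzero i k fun x hx => (hsupp x hx).2),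
    show (G.c i).target ∩ (G.c i).symm ⁻¹' (G.c k).source = trans (G.c k) (G.c i) '' tdom (G.c k) (G.c i)
      from (trans_image (c := G.c k) (e := G.c i)).symm,
    integral_image_eq_integral_abs_det_fderiv_smul volume hmo hder trans_injOn]
  exact setIntegral_congr_fun hmo heq

variable [T2Space X] [MeasurableSpace X] [BorelSpace X]

/-- One summand of the measure. -/
def part (i : Fin G.n) : Measure X :=
  Measure.map (G.c i).symm ((volume.restrict (G.c i).target).withDensity fun y =>
    ENNReal.ofReal (G.rho i ((G.c i).symm y) * D G i y))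

lemma vol_eq : G.vol = ∑ i, part G i := rfl

lemma dens_cont (i : Fin G.n) :
    ContinuousOn (fun y => G.rho i ((G.c i).symm y) * D G i y) (G.c i).target :=
  ((rho_smooth G i).continuous.comp_continuousOn (G.c i).continuousOn_symm).mul (D_cont G i)

lemma dens_zero (i : Fin G.n) {y : R4} (hy : y ∈ (G.c i).target) (h : 2 < ‖y‖) :
    G.rho i ((G.c i).symm y) = 0 := by
  by_contra hne
  have := (rho_supp G i _ hne).2
  rw [(G.c i).right_inv hy] at this
  linarith

lemma dens_bound : ∃ C : ℝ, ∀ i, ∀ y ∈ (G.c i).target,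
    G.rho i ((G.c i).symm y) * D G i y ≤
      (Metric.closedBall (0 : R4) 2).indicator (fun _ => C) y := by
  obtain ⟨m, M, -, hM, hb⟩ := D_bounds G
  refine ⟨M, fun i y hy => ?_⟩
  by_cases h : y ∈ Metric.closedBall (0 : R4) 2
  · rw [indicator_of_mem h]
    have h1 : G.rho i ((G.c i).symm y) ≤ 1 := by
      rw [← rho_sum G ((G.c i).symm y)]
      exact Finset.single_le_sum (fun k _ => rho_nonneg G k _) (Finset.mem_univ i)
    calc G.rho i ((G.c i).symm y) * D G i y ≤ 1 * M :=
          mul_le_mul h1 (hb i y (Metric.closedBall_subset_closedBall (by norm_num) h)).2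
            (D_pos G hy).le zero_le_one
      _ = M := one_mul M
  · rw [indicator_of_notMem h, dens_zero G i hy (not_le.1 fun h' => h (mem_closedBall_zero_iff.2 h')),
      zero_mul]

lemma aem_symm (i : Fin G.n) (f : R4 → ℝ≥0∞) :
    AEMeasurable (G.c i).symm ((volume.restrict (G.c i).target).withDensity f) :=
  ((G.c i).continuousOn_symm.aemeasurable (G.c i).open_target.measurableSet).mono_ac
    (withDensity_absolutelyContinuous _ _)

lemma isFiniteMeasure_part (i : Fin G.n) : IsFiniteMeasure (part G i) := by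
  obtain ⟨C, hC⟩ := dens_bound G
  constructor
  rw [part, Measure.map_apply_of_aemeasurable (aem_symm G i _) MeasurableSet.univ, preimage_univ,
    withDensity_apply _ MeasurableSet.univ, Measure.restrict_univ]
  refine lt_of_le_of_lt (lintegral_mono_ae (g := fun y =>
    (Metric.closedBall (0 : R4) 2).indicator (fun _ => ENNReal.ofReal C) y) ?_) ?_
  · filter_upwards [ae_restrict_mem (G.c i).open_target.measurableSet] with y hy
    refine (ENNReal.ofReal_le_ofReal (hC i y hy)).trans ?_
    by_cases h : y ∈ Metric.closedBall (0 : R4) 2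
    · rw [indicator_of_mem h, indicator_of_mem h]
    · rw [indicator_of_notMem h, indicator_of_notMem h, ENNReal.ofReal_zero]
  · rw [lintegral_indicator measurableSet_closedBall, setLIntegral_const]
    exact ENNReal.mul_lt_top ENNReal.ofReal_lt_top
      (lt_of_le_of_lt (Measure.restrict_apply_le _ _) measure_closedBall_lt_top)

lemma vol_finite : IsFiniteMeasure G.vol := by
  constructor
  rw [vol_eq, Measure.finsetSum_apply]
  exact ENNReal.sum_lt_top.2 fun i _ => (isFiniteMeasure_part G i).measure_univ_lt_top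

lemma part_le (i : Fin G.n) : part G i ≤ G.vol := by
  rw [vol_eq]
  exact Finset.single_le_sum (f := part G) (fun k _ => Measure.zero_le _) (Finset.mem_univ i)

lemma part_integral (i : Fin G.n) {f : X → ℝ} (hf : Integrable f (part G i)) :
    IntegrableOn (fun y => G.rho i ((G.c i).symm y) * f ((G.c i).symm y) * D G i y)
        (G.c i).target ∧
      ∫ x, f x ∂part G i =
        ∫ y in (G.c i).target, G.rho i ((G.c i).symm y) * f ((G.c i).symm y) * D G i y := by
  have hm : AEMeasurable (fun y => ENNReal.ofReal (G.rho i ((G.c i).symm y) * D G i y))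
      (volume.restrict (G.c i).target) :=
    ((dens_cont G i).aemeasurable (G.c i).open_target.measurableSet).ennreal_ofReal
  have hfin : ∀ᵐ y ∂volume.restrict (G.c i).target,
      ENNReal.ofReal (G.rho i ((G.c i).symm y) * D G i y) < ⊤ :=
    Eventually.of_forall fun _ => ENNReal.ofReal_lt_top
  have h2 : Integrable (fun y => f ((G.c i).symm y))
      ((volume.restrict (G.c i).target).withDensity
        fun y => ENNReal.ofReal (G.rho i ((G.c i).symm y) * D G i y)) :=
    (integrable_map_measure hf.1 (aem_symm G i _)).1 hf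
  have hae : (fun y => (ENNReal.ofReal (G.rho i ((G.c i).symm y) * D G i y)).toReal •
      f ((G.c i).symm y)) =ᵐ[volume.restrict (G.c i).target]
      fun y => G.rho i ((G.c i).symm y) * f ((G.c i).symm y) * D G i y := by
    filter_upwards [ae_restrict_mem (G.c i).open_target.measurableSet] with y hy
    rw [ENNReal.toReal_ofReal (mul_nonneg (rho_nonneg G i _) (D_pos G hy).le), smul_eq_mul]
    ring
  refine ⟨((integrable_withDensity_iff_integrable_smul₀' hm hfin).1 h2).congr hae, ?_⟩
  rw [part, integral_map (aem_symm G i _) hf.1,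
    integral_withDensity_eq_integral_toReal_smul₀ hm hfin]
  exact integral_congr_ae hae

lemma vol_chart (i : Fin G.n) {f : X → ℝ} (hf : Integrable f G.vol)
    (hsupp : ∀ x, f x ≠ 0 → x ∈ (G.c i).source) :
    IntegrableOn (fun y => f ((G.c i).symm y) * D G i y) (G.c i).target ∧
      ∫ x, f x ∂G.vol = ∫ y in (G.c i).target, f ((G.c i).symm y) * D G i y := by
  have hk : ∀ k, IntegrableOn (fun y => G.rho k ((G.c i).symm y) * f ((G.c i).symm y) * D G i y)
      (G.c i).target ∧ ∫ x, f x ∂part G k =
        ∫ y in (G.c i).target, G.rho k ((G.c i).symm y) * f ((G.c i).symm y) * D G i y := by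
    intro k
    obtain ⟨h1, h2⟩ := part_integral G k (hf.mono_measure (part_le G k))
    obtain ⟨h3, h4⟩ := transfer G i k (fun x => G.rho k x * f x)
      (fun x hx => ⟨hsupp x (right_ne_zero_of_mul hx),
        (rho_supp G k x (left_ne_zero_of_mul hx)).1⟩) h1
    exact ⟨h3, h2.trans h4⟩
  have he : (fun y => f ((G.c i).symm y) * D G i y) =
      fun y => ∑ k, G.rho k ((G.c i).symm y) * f ((G.c i).symm y) * D G i y := by
    funext y
    rw [← Finset.sum_mul, ← Finset.sum_mul, rho_sum, one_mul]
  rw [he]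
  refine ⟨integrable_finsetSum _ fun k _ => (hk k).1, ?_⟩
  rw [vol_eq, integral_finsetSum_measure fun k _ => hf.mono_measure (part_le G k),
    integral_finsetSum _ fun k _ => (hk k).1]
  exact Finset.sum_congr rfl fun k _ => (hk k).2

variable [CompactSpace X]

lemma integrable_cont {f : X → ℝ} (hf : Continuous f) : Integrable f G.vol := by
  have := vol_finite G
  exact hf.integrable_of_hasCompactSupport (HasCompactSupport.of_compactSpace f)

lemma pair_integrable {θ η : X → Bil} (hθ : Cont2 θ) (hη : Cont2 η) :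
    Integrable (fun x => G.W x (θ x) (η x)) G.vol :=
  integrable_cont G (W_cont G hθ hη)

lemma near_measurableSet (r : ℝ) (x : X) : MeasurableSet (G.near r x) :=
  ((near_closed G r).preimage (Continuous.prodMk_right x)).measurableSet

/-- The volume of a measurable set lying in a coordinate ball. -/
lemma vol_real_chart (i : Fin G.n) {A : Set X} (hA : MeasurableSet A)
    (hsub : A ⊆ (G.c i).source) :
    IntegrableOn (fun y => A.indicator (1 : X → ℝ) ((G.c i).symm y) * D G i y) (G.c i).target ∧
      G.vol.real A =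
        ∫ y in (G.c i).target, A.indicator (1 : X → ℝ) ((G.c i).symm y) * D G i y := by
  have := vol_finite G
  have hi : Integrable (A.indicator (1 : X → ℝ)) G.vol := (integrable_const 1).indicator hA
  obtain ⟨h1, h2⟩ := vol_chart G i hi fun x hx => hsub (mem_of_indicator_ne_zero hx)
  exact ⟨h1, by rw [← h2, integral_indicator_one hA]⟩

/-- The volume of the unit ball of the model space. -/
def ω₄ : ℝ := volume.real (Metric.closedBall (0 : R4) 1)

lemma ω₄_pos : 0 < ω₄ :=
  ENNReal.toReal_pos (Metric.measure_closedBall_pos volume 0 one_pos).ne'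
    measure_closedBall_lt_top.ne

lemma volume_closedBall (a : R4) {r : ℝ} (hr : 0 ≤ r) :
    volume.real (Metric.closedBall a r) = r ^ 4 * ω₄ := by
  rw [Measure.addHaar_real_closedBall' volume a hr, finrank_euclideanSpace_fin, ω₄]

lemma vol_near : ∃ C : ℝ, ∀ r x, 0 < r → r ≤ 1 →
    G.vol.real (G.near r x) ≤ C * r ^ 4 ∧ r ^ 4 ≤ C * G.vol.real (G.near r x) := by
  obtain ⟨L, r0, hL, hr0, hnc⟩ := near_chart G
  obtain ⟨m, M, hm, hM, hb⟩ := D_bounds G
  have := vol_finite G
  set r1 := min r0 L⁻¹ with hr1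
  have hr1p : 0 < r1 := lt_min hr0 (by positivity)
  have hr11 : L * r1 ≤ 1 := by
    have h := mul_le_mul_of_nonneg_left (min_le_right r0 L⁻¹) (by linarith : (0 : ℝ) ≤ L)
    rwa [mul_inv_cancel₀ (by linarith : L ≠ 0)] at h
  have key : ∀ r x, 0 < r → r ≤ r1 → m * (r ^ 4 * ω₄) ≤ G.vol.real (G.near r x) ∧
      G.vol.real (G.near r x) ≤ M * ((L * r) ^ 4 * ω₄) := by
    intro r x hr hr'
    obtain ⟨i, hxi, hx1⟩ := G.c_cover x
    obtain ⟨hin, hout⟩ := hnc i x r hr.le (hr'.trans (min_le_left _ _)) hxi
      (hx1.trans (by norm_num))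
    obtain ⟨hint, hval⟩ := vol_real_chart G i (near_measurableSet G r x)
      fun z hz => (hout hz).1
    rw [hval]
    have hLr : L * r ≤ 1 := (mul_le_mul_of_nonneg_left hr' (by linarith)).trans hr11
    have hsub : ∀ s, s ≤ L * r → Metric.closedBall (G.c i x) s ⊆
        Metric.closedBall (0 : R4) (7 / 2) := fun s hs =>
      Metric.closedBall_subset_closedBall' (by
        rw [dist_zero_right]
        linarith)
    have ht := (G.c i).open_target.measurableSet
    have hsubt : ∀ s, s ≤ L * r → Metric.closedBall (G.c i x) s ⊆ (G.c i).target := fun s hs =>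
      (hsub s hs).trans (closedBall_subset_target G i (by norm_num))
    have hrL : r ≤ L * r := le_mul_of_one_le_left hr.le hL
    have hicst : ∀ (c s : ℝ), IntegrableOn
        ((Metric.closedBall (G.c i x) s).indicator fun _ => c) (G.c i).target := fun c s =>
      ((integrable_indicator_iff measurableSet_closedBall).2
        (integrableOn_const measure_closedBall_lt_top.ne)).integrableOn
    have hball : ∀ (c s : ℝ), 0 ≤ s → s ≤ L * r →
        ∫ y in (G.c i).target, (Metric.closedBall (G.c i x) s).indicator (fun _ => c) y =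
          c * (s ^ 4 * ω₄) := fun c s hs0 hs => by
      rw [setIntegral_indicator measurableSet_closedBall, inter_eq_right.2 (hsubt s hs),
        setIntegral_const, volume_closedBall _ hs0, smul_eq_mul, mul_comm]
    constructor
    · rw [← hball m r hr.le hrL]
      refine setIntegral_mono_on (hicst _ _) hint ht fun y hy => ?_
      by_cases hyB : y ∈ Metric.closedBall (G.c i x) r
      · rw [indicator_of_mem hyB, indicator_of_mem (hin ⟨(G.c i).map_target hy, by
          rw [mem_preimage, (G.c i).right_inv hy]; exact hyB⟩), Pi.one_apply, one_mul]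
        exact (hb i y (hsub r hrL hyB)).1
      · rw [indicator_of_notMem hyB]
        exact mul_nonneg (indicator_nonneg (fun _ _ => zero_le_one) _) (D_pos G hy).le
    · rw [← hball M (L * r) (by positivity) le_rfl]
      refine setIntegral_mono_on hint (hicst _ _) ht fun y hy => ?_
      by_cases hyA : (G.c i).symm y ∈ G.near r x
      · have hyB : y ∈ Metric.closedBall (G.c i x) (L * r) := by
          have h := (hout hyA).2
          rwa [mem_preimage, (G.c i).right_inv hy] at h
        rw [indicator_of_mem hyA, indicator_of_mem hyB, Pi.one_apply, one_mul]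
        exact (hb i y (hsub _ le_rfl hyB)).2
      · rw [indicator_of_notMem hyA, zero_mul]
        exact indicator_nonneg (fun _ _ => hM.le) _
  have hω := ω₄_pos
  set U := G.vol.real univ with hU
  have hU0 : 0 ≤ U := measureReal_nonneg
  have hA0 : 0 ≤ M * L ^ 4 * ω₄ := by positivity
  refine ⟨M * L ^ 4 * ω₄ + U * (r1 ^ 4)⁻¹ + (m * ω₄)⁻¹ * (1 + (r1 ^ 4)⁻¹),
    fun r x hr hr' => ?_⟩
  have hp : 0 ≤ U * (r1 ^ 4)⁻¹ := by positivity
  have hq : 0 ≤ (m * ω₄)⁻¹ * (1 + (r1 ^ 4)⁻¹) := by positivity
  rcases le_or_gt r r1 with h | h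
  · obtain ⟨k1, k2⟩ := key r x hr h
    constructor
    · calc G.vol.real (G.near r x) ≤ M * ((L * r) ^ 4 * ω₄) := k2
        _ = M * L ^ 4 * ω₄ * r ^ 4 := by ring
        _ ≤ _ := mul_le_mul_of_nonneg_right (by linarith) (by positivity)
    · calc r ^ 4 = (m * ω₄)⁻¹ * (m * (r ^ 4 * ω₄)) := by field_simp
        _ ≤ (m * ω₄)⁻¹ * G.vol.real (G.near r x) := mul_le_mul_of_nonneg_left k1 (by positivity)
        _ ≤ _ := mul_le_mul_of_nonneg_right
            (by nlinarith [show 0 ≤ (m * ω₄)⁻¹ * (r1 ^ 4)⁻¹ by positivity]) measureReal_nonneg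
  · have h4 : r1 ^ 4 ≤ r ^ 4 := pow_le_pow_left₀ hr1p.le h.le 4
    have hmono : G.vol.real (G.near r1 x) ≤ G.vol.real (G.near r x) := measureReal_mono <| by
      rintro z ⟨i, a1, a2, a3, a4, a5⟩
      exact ⟨i, a1, a2, a3, a4, a5.trans h.le⟩
    constructor
    · calc G.vol.real (G.near r x) ≤ U := measureReal_mono (subset_univ _)
        _ = U * (r1 ^ 4)⁻¹ * r1 ^ 4 := by field_simp
        _ ≤ U * (r1 ^ 4)⁻¹ * r ^ 4 := mul_le_mul_of_nonneg_left h4 hp
        _ ≤ _ := mul_le_mul_of_nonneg_right (by linarith) (by positivity)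
    · calc r ^ 4 ≤ 1 := pow_le_one₀ hr.le hr'
        _ = (m * ω₄)⁻¹ * (r1 ^ 4)⁻¹ * (m * (r1 ^ 4 * ω₄)) := by field_simp
        _ ≤ (m * ω₄)⁻¹ * (r1 ^ 4)⁻¹ * G.vol.real (G.near r x) :=
            mul_le_mul_of_nonneg_left ((key r1 x hr1p le_rfl).1.trans hmono) (by positivity)
        _ ≤ _ := mul_le_mul_of_nonneg_right
            (by nlinarith [show 0 ≤ (m * ω₄)⁻¹ by positivity]) measureReal_nonneg

end Vale.Agent.P204.Full.Base
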